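import Vale.Agent.P224.TP.Defs
import Mathlib.Analysis.Normed.Module.Connected

/-!
The colouring of the complement of the cone and the normal field of its positive side.
-/

namespace Vale.Agent.P224.TP

open Set Filter Metric Module MeasureTheory Vale.Agent.P224 Vale.Agent.P224.TwoSide
open scoped Topology RealInnerProductSpace ContDiff Manifold

set_option linter.unusedSectionVars false

section

variable {W : Type*} [NormedAddCommGroup W] [InnerProductSpace ℝ W]

/-- a convex cone around the half line through `-p` -/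
def nb (p : W) (ρ : ℝ) : Set W := {y | ‖y - ⟪y, p⟫ • p‖ < -(ρ * ⟪y, p⟫)}

lemma isOpen_nb (p : W) (ρ : ℝ) : IsOpen (nb p ρ) := by
  have h1 : Continuous fun y : W => ⟪y, p⟫ := continuous_id.inner continuous_const
  refine isOpen_lt ?_ ?_
  · exact (continuous_id.sub (h1.smul continuous_const)).norm
  · exact (continuous_const.mul h1).neg

lemma nb_neg {p y : W} {ρ : ℝ} (hρ : 0 < ρ) (hy : y ∈ nb p ρ) : ⟪y, p⟫ < 0 := by
  have h1 : ‖y - ⟪y, p⟫ • p‖ < -(ρ * ⟪y, p⟫) := hy
  have h2 := norm_nonneg (y - ⟪y, p⟫ • p)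
  by_contra h
  push Not at h
  have := mul_nonneg hρ.le h
  linarith

lemma mem_nb {p y : W} {ρ : ℝ} (hp : ‖p‖ = 1) (hρ : 0 < ρ) (hy : y ≠ 0) (h : ⟪y, p⟫ = -‖y‖) :
    y ∈ nb p ρ := by
  have h1 := eq_neg_of_inner hp h
  have h2 : y - ⟪y, p⟫ • p = 0 := by
    rw [h, neg_smul, sub_neg_eq_add]
    nth_rw 1 [h1]
    exact neg_add_cancel _
  change ‖y - ⟪y, p⟫ • p‖ < -(ρ * ⟪y, p⟫)
  rw [h2, norm_zero, h]
  have := norm_pos_iff.mpr hy
  have := mul_pos hρ this
  linarith

lemma isPreconnected_nb [FiniteDimensional ℝ W] {p : W} (hp : ‖p‖ = 1) {ρ : ℝ} (hρ : 0 < ρ)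
    (hW : 3 ≤ finrank ℝ W) :
    IsPreconnected ({y : W | ⟪y, p⟫ ≠ -‖y‖} ∩ nb p ρ) := by
  set K : Submodule ℝ W := (ℝ ∙ p)ᗮ with hK
  have hp0 : p ≠ 0 := by
    rintro rfl
    rw [norm_zero] at hp
    exact zero_ne_one hp
  have hrk : 1 < Module.rank ℝ K := by
    have h1 : finrank ℝ (ℝ ∙ p) + finrank ℝ K = finrank ℝ W :=
      Submodule.finrank_add_finrank_orthogonal _
    rw [finrank_span_singleton hp0] at h1
    have h2 : 1 < finrank ℝ K := by omega
    exact_mod_cast Module.lt_rank_of_lt_finrank h2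
  have hKp : ∀ w : K, ⟪(w : W), p⟫ = 0 := fun w =>
    (Submodule.mem_orthogonal_singleton_iff_inner_left).1 w.2
  set Q : Set (ℝ × ℝ) := {q | 0 < q.1 ∧ 0 < q.2 ∧ q.2 < ρ * q.1} with hQ
  have hQc : Convex ℝ Q := by
    rintro ⟨a, b⟩ ⟨h1, h2, h3⟩ ⟨a', b'⟩ ⟨h1', h2', h3'⟩ u v hu hv huv
    simp only at h1 h2 h3 h1' h2' h3'
    simp only [hQ, Prod.smul_mk, Prod.mk_add_mk, smul_eq_mul, Set.mem_ofPred_eq]
    rcases hu.eq_or_lt with h | h
    · have : v = 1 := by linarith
      subst h; subst this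
      simp only [zero_mul, one_mul, zero_add]
      exact ⟨h1', h2', h3'⟩
    · have e1 := mul_pos h h1
      have e2 := mul_pos h h2
      have e3 := mul_lt_mul_of_pos_left h3 h
      have e1' := mul_nonneg hv h1'.le
      have e2' := mul_nonneg hv h2'.le
      have e3' := mul_le_mul_of_nonneg_left h3'.le hv
      refine ⟨by linarith, by linarith, by linarith⟩
  have hpre : IsPreconnected (Q ×ˢ sphere (0 : K) 1) :=
    hQc.isPreconnected.prod (isPreconnected_sphere hrk _ _)
  set G : (ℝ × ℝ) × K → W := fun q => -(q.1.1 • p) + q.1.2 • (q.2 : W) with hG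
  have hGc : Continuous G := by
    rw [hG]
    fun_prop
  have hpp : ⟪p, p⟫ = 1 := by rw [real_inner_self_eq_norm_sq, hp]; norm_num
  have himg : G '' (Q ×ˢ sphere (0 : K) 1) = {y : W | ⟪y, p⟫ ≠ -‖y‖} ∩ nb p ρ := by
    ext y
    constructor
    · rintro ⟨⟨⟨a, b⟩, w⟩, ⟨⟨h1, h2, h3⟩, hw⟩, rfl⟩
      simp only at h1 h2 h3
      have hwn : ‖(w : W)‖ = 1 := by
        rw [mem_sphere_zero_iff_norm] at hw
        exact hw
      have e1 : ⟪G ((a, b), w), p⟫ = -a := by
        simp only [hG]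
        rw [inner_add_left, inner_neg_left, real_inner_smul_left, real_inner_smul_left, hKp, hpp]
        ring
      have e2 : G ((a, b), w) - ⟪G ((a, b), w), p⟫ • p = b • (w : W) := by
        rw [e1]
        simp only [hG, neg_smul]
        abel
      refine ⟨?_, ?_⟩
      · intro h
        have h4 := eq_neg_of_inner hp h
        rw [e1] at h
        have h5 : ‖G ((a, b), w)‖ = a := by linarith
        rw [h5] at h4
        have h6 : b • (w : W) = 0 := by
          rw [← e2, e1]
          nth_rw 1 [h4]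
          rw [neg_smul, sub_neg_eq_add]
          exact neg_add_cancel _
        have h7 : ‖b • (w : W)‖ = b := by
          rw [norm_smul, hwn, mul_one, Real.norm_of_nonneg h2.le]
        rw [h6, norm_zero] at h7
        exact h2.ne h7
      · change ‖G ((a, b), w) - ⟪G ((a, b), w), p⟫ • p‖ < -(ρ * ⟪G ((a, b), w), p⟫)
        rw [e2, e1, norm_smul, hwn, mul_one, Real.norm_of_nonneg h2.le]
        linarith
    · rintro ⟨h1, h2⟩
      have h3 := nb_neg hρ h2
      have h4 : ‖y - ⟪y, p⟫ • p‖ < -(ρ * ⟪y, p⟫) := h2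
      set z := y - ⟪y, p⟫ • p with hz
      have hzK : z ∈ K := by
        rw [hK, Submodule.mem_orthogonal_singleton_iff_inner_left, hz, inner_sub_left,
          real_inner_smul_left, hpp]
        ring
      have hz0 : z ≠ 0 := by
        intro h
        apply h1
        have h5 : y = ⟪y, p⟫ • p := sub_eq_zero.1 (hz ▸ h)
        have h6 : ‖y‖ = -⟪y, p⟫ := by
          nth_rw 1 [h5]
          rw [norm_smul, hp, mul_one, Real.norm_of_nonpos h3.le]
        rw [h6, neg_neg]
      have hzn : 0 < ‖z‖ := norm_pos_iff.2 hz0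
      refine ⟨((-⟪y, p⟫, ‖z‖), ‖z‖⁻¹ • ⟨z, hzK⟩), ⟨⟨?_, hzn, ?_⟩, ?_⟩, ?_⟩
      · simp only
        linarith
      · simp only
        linarith
      · rw [mem_sphere_zero_iff_norm]
        change ‖‖z‖⁻¹ • z‖ = 1
        rw [norm_smul, norm_inv, norm_norm, inv_mul_cancel₀ hzn.ne']
      · simp only [hG]
        change -(-⟪y, p⟫ • p) + ‖z‖ • (‖z‖⁻¹ • z) = y
        rw [smul_smul, mul_inv_cancel₀ hzn.ne', one_smul, neg_smul, neg_neg, hz]
        abel
  rw [← himg]
  exact hpre.image _ hGc.continuousOn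

end

variable {V W M : Type*} [NormedAddCommGroup V] [InnerProductSpace ℝ V] [FiniteDimensional ℝ V]
  [NormedAddCommGroup W] [InnerProductSpace ℝ W] [FiniteDimensional ℝ W]
  [TopologicalSpace M] [ChartedSpace V M]

/-- a colouring of the complement of the cone in the whole space -/
lemma exists_col [IsManifold 𝓘(ℝ, V) ∞ M] [CompactSpace M]
    (hW : finrank ℝ W = finrank ℝ V + 2) (hm : 0 < finrank ℝ V) {F : M → W} (hF : SphImm V F)
    (hinj : Function.Injective F) : ∃ c : W → ℝ, IsCol (cone F) {y : W | y ≠ 0} c := by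
  obtain ⟨p, hp, hpc, hnpc⟩ := exists_base hW hF hinj
  set D : Set W := {y | ⟪y, p⟫ ≠ - ‖y‖} with hD
  have hDo : IsOpen D := by
    have h1 : Continuous fun y : W => ⟪y, p⟫ := continuous_id.inner continuous_const
    have h2 : Continuous fun y : W => - ‖y‖ := continuous_norm.neg
    exact isOpen_ne_fun h1 h2
  have hD0 : ∀ y ∈ D, y ≠ 0 := by
    intro y hy h0
    apply hy
    rw [h0]; simp
  have hstar : ∀ y ∈ D, segment ℝ p y ⊆ D := by
    intro y hy z hz hzD
    obtain ⟨a, b, ha, hb, hab, rfl⟩ := hz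
    have h1 := eq_neg_of_inner hp hzD
    rcases hb.eq_or_lt with h0 | h0
    · rw [← h0, add_zero] at hab
      rw [← h0, hab] at hzD
      simp only [one_smul, zero_smul, add_zero, hp] at hzD
      rw [real_inner_self_eq_norm_sq, hp] at hzD
      norm_num at hzD
    · set ρ := ‖a • p + b • y‖ with hρ
      have h2 : b • y = - ((ρ + a) • p) := by
        have : b • y = (a • p + b • y) - a • p := by abel
        rw [this, h1, add_smul]
        abel
      have h3 : y = - (((ρ + a) / b) • p) := by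
        have := congrArg (fun w => b⁻¹ • w) h2
        simp only [smul_smul, inv_mul_cancel₀ h0.ne', one_smul, smul_neg] at this
        rw [this]
        congr 2
        field_simp
      apply hy
      have hρ0 : 0 ≤ ρ := norm_nonneg _
      have h4 : 0 ≤ (ρ + a) / b := by positivity
      rw [h3, inner_neg_left, real_inner_smul_left, real_inner_self_eq_norm_sq, hp, norm_neg,
        norm_smul, hp, Real.norm_of_nonneg h4]
      ring
  obtain ⟨c, hc⟩ := exists_global (C := cone F) (D := D) (p := p) hDo hpc hstar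
    (fun z hz => exists_goodAt hW hF hinj (hD0 z hz))
  -- a neighbourhood of the half line
  have hp0 : p ≠ 0 := by
    rintro rfl
    rw [norm_zero] at hp
    exact zero_ne_one hp
  have h1 : ∀ᶠ z in 𝓝 (-p), z ∉ cone F := by
    filter_upwards [(goodAt_off hF.smooth.continuous hF.unit (neg_ne_zero.2 hp0) hnpc).zero]
      with z hz h
    exact one_ne_zero (hz.2 h)
  obtain ⟨ρ, hρ, hball⟩ := Metric.eventually_nhds_iff_ball.1 h1
  have hoff : ∀ y ∈ nb p ρ, y ∉ cone F := by
    rintro y hy ⟨r, hr, x, hx⟩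
    have h2 := nb_neg hρ hy
    have h3 : ‖y - ⟪y, p⟫ • p‖ < -(ρ * ⟪y, p⟫) := hy
    set a := -⟪y, p⟫ with ha
    have ha0 : 0 < a := by linarith
    refine hball (a⁻¹ • y) ?_ ⟨a⁻¹ * r, by positivity, x, by rw [hx, smul_smul]⟩
    rw [mem_ball, dist_eq_norm, sub_neg_eq_add]
    have e1 : a⁻¹ • y + p = a⁻¹ • (y - ⟪y, p⟫ • p) := by
      rw [smul_sub, smul_smul]
      have : a⁻¹ * ⟪y, p⟫ = -1 := by
        rw [ha, inv_neg, neg_mul, inv_mul_cancel₀ h2.ne]
      rw [this, neg_smul, one_smul, sub_neg_eq_add]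
    rw [e1, norm_smul, norm_inv, Real.norm_of_nonneg ha0.le, inv_mul_lt_iff₀ ha0]
    calc ‖y - ⟪y, p⟫ • p‖ < -(ρ * ⟪y, p⟫) := h3
      _ = a * ρ := by rw [ha]; ring
  have hcol2 : IsCol (cone F) (nb p ρ) (fun _ => 1) := by
    intro y hy
    have hy0 : y ≠ 0 := by
      rintro rfl
      have := nb_neg hρ hy
      rw [inner_zero_left] at this
      exact lt_irrefl _ this
    exact ⟨_, goodAt_off hF.smooth.continuous hF.unit hy0 (hoff y hy),
      Eventually.of_forall fun z => by rw [Real.sign_one]⟩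
  obtain ⟨c', hc'⟩ := glue hDo (isOpen_nb p ρ) hc hcol2
    (isPreconnected_nb hp hρ (by omega))
  refine ⟨c', hc'.mono ?_⟩
  intro y hy
  by_cases h : ⟪y, p⟫ = -‖y‖
  · exact Or.inr (mem_nb hp hρ hy h)
  · exact Or.inl h

/-- the normal field of the positive side -/
theorem exists_normal_side [IsManifold 𝓘(ℝ, V) ∞ M] [CompactSpace M]
    (hW : finrank ℝ W = finrank ℝ V + 2) {F : M → W} (hF : SphImm V F) {c : W → ℝ}
    (hc : IsCol (cone F) (range F) c) :
    ∃ N : M → W, ContMDiff 𝓘(ℝ, V) 𝓘(ℝ, W) ∞ N ∧ (∀ x, IsUnitNormal V F x (N x)) ∧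
      ∀ x, ∀ᶠ s in 𝓝[>] (0 : ℝ), c (F x + s • N x) = 1 := by
  have hneg : ∀ (x : M) (n : W), IsUnitNormal V F x n → IsUnitNormal V F x (-n) := by
    rintro x n ⟨h1, h2, h3⟩
    exact ⟨by rw [norm_neg]; exact h1, by rw [inner_neg_right, h2, neg_zero],
      fun i => by rw [inner_neg_right, h3, neg_zero]⟩
  -- dichotomy
  have hdich : ∀ (x : M) (n : W), IsUnitNormal V F x n →
      (∀ᶠ s in 𝓝[>] (0 : ℝ), c (F x + s • n) = 1) ∨
      (∀ᶠ s in 𝓝[>] (0 : ℝ), c (F x + s • (-n)) = 1) := by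
    intro x n hn
    obtain ⟨g, hg, hcg⟩ := hc (F x) ⟨x, rfl⟩
    rcases lt_or_gt_of_ne (fderiv_ne_zero hW hF hg hn) with h | h
    · right
      exact side hg hcg (by rw [map_neg]; linarith)
    · left
      exact side hg hcg h
  have hexcl : ∀ (x : M) (n : W), IsUnitNormal V F x n →
      (∀ᶠ s in 𝓝[>] (0 : ℝ), c (F x + s • n) = 1) →
      ¬ (∀ᶠ s in 𝓝[>] (0 : ℝ), c (F x + s • (-n)) = 1) := by
    intro x n hn h1 h2
    obtain ⟨g, hg, hcg⟩ := hc (F x) ⟨x, rfl⟩
    rcases lt_or_gt_of_ne (fderiv_ne_zero hW hF hg hn) with h | h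
    · obtain ⟨s, hs1, hs2⟩ := (h1.and (side_neg hg hcg h)).exists
      rw [hs1] at hs2; norm_num at hs2
    · obtain ⟨s, hs1, hs2⟩ := (h2.and (side_neg hg hcg (n := -n)
        (by rw [map_neg]; linarith))).exists
      rw [hs1] at hs2; norm_num at hs2
  have hex : ∀ x : M, ∃ n : W, IsUnitNormal V F x n ∧
      ∀ᶠ s in 𝓝[>] (0 : ℝ), c (F x + s • n) = 1 := by
    intro x
    have hut : chartAt V x x ∈ (chartAt V x).target :=
      (chartAt V x).map_source (mem_chart_source _ x)
    have h1 := (pointwise_nu hW hF x hut).1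
    rw [(chartAt V x).left_inv (mem_chart_source _ x)] at h1
    rcases hdich x _ h1 with h | h
    · exact ⟨_, h1, h⟩
    · exact ⟨_, hneg x _ h1, h⟩
  choose N hN hNc using hex
  refine ⟨N, ?_, hN, hNc⟩
  intro x₀
  set φ := chartAt V x₀ with hφ
  have hxs : x₀ ∈ φ.source := mem_chart_source _ x₀
  have hxT : φ x₀ ∈ φ.target := φ.map_source hxs
  set ν : M → W := fun x => nuW hW (rep F x₀) (φ x) with hν
  have hνn : ∀ x ∈ φ.source, IsUnitNormal V F x (ν x) := by
    intro x hx
    have h1 := (pointwise_nu hW hF x₀ (φ.map_source hx)).1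
    rwa [φ.left_inv hx] at h1
  have hνs : ContMDiffAt 𝓘(ℝ, V) 𝓘(ℝ, W) ∞ ν x₀ := by
    have hI := (immV_rep hF x₀).imm hW
    have hmem : iV V (φ x₀) ∈ (iV V).symm ⁻¹' φ.target := by
      rw [mem_preimage, (iV V).symm_apply_apply]; exact hxT
    have h1 : ContDiffAt ℝ ∞ (nu (tr hW (rep F x₀))) (iV V (φ x₀)) :=
      hI.contDiffOn_nu.contDiffAt (hI.isOpen.mem_nhds hmem)
    have h2 : ContDiffAt ℝ ∞ (nuW hW (rep F x₀)) (φ x₀) := by
      unfold nuW
      exact (iW hW).symm.contDiff.contDiffAt.comp _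
        (h1.comp (φ x₀) (iV V).contDiff.contDiffAt)
    have h3 : ContMDiffAt 𝓘(ℝ, V) 𝓘(ℝ, V) ∞ φ x₀ := by
      have := contMDiffAt_extChartAt (I := 𝓘(ℝ, V)) (x := x₀) (n := ∞)
      simpa using this
    exact h2.contMDiffAt.comp x₀ h3
  -- local constancy of the sign
  obtain ⟨g, hg, hcg⟩ := hc (F x₀) ⟨x₀, rfl⟩
  have hFc : ContinuousAt F x₀ := hF.smooth.continuous.continuousAt
  have e1 : ∀ᶠ x in 𝓝 x₀, GoodAt (cone F) g (F x) := hFc.eventually hg.eventually
  have e2 : ∀ᶠ x in 𝓝 x₀, ∀ᶠ z in 𝓝 (F x), c z = Real.sign (g z) :=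
    hFc.eventually hcg.eventually_nhds
  have hcont : ContinuousAt (fun x => fderiv ℝ g (F x) (ν x)) x₀ := by
    have h1 : ContinuousAt (fun x => fderiv ℝ g (F x)) x₀ :=
      ContinuousAt.comp (f := F) (g := fderiv ℝ g)
        (hg.smooth.fderiv_right (m := 0) (by norm_num)).continuousAt hFc
    exact h1.clm_apply hνs.continuousAt
  have e3 : ∀ᶠ x in 𝓝 x₀, x ∈ φ.source := φ.open_source.mem_nhds hxs
  have huniq : ∀ x (n : W), IsUnitNormal V F x n →
      (∀ᶠ s in 𝓝[>] (0 : ℝ), c (F x + s • n) = 1) → N x = n := by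
    intro x n hn hcn
    obtain ⟨ε₁, hε₁, h1⟩ := unitNormal_eq hW hF x n hn
    obtain ⟨ε₂, hε₂, h2⟩ := unitNormal_eq hW hF x (N x) (hN x)
    have hε : ∀ ε : ℝ, ε ^ 2 = 1 → ε = 1 ∨ ε = -1 := by
      intro ε h
      have : (ε - 1) * (ε + 1) = 0 := by linarith [h]
      rcases mul_eq_zero.mp this with h | h
      · left; linarith
      · right; linarith
    have h3 : N x = n ∨ N x = - n := by
      rw [h1, h2]
      rcases hε _ hε₁ with a | a <;> rcases hε _ hε₂ with b | b <;> simp [a, b]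
    rcases h3 with h3 | h3
    · exact h3
    · exfalso
      have := hNc x
      rw [h3] at this
      exact hexcl x n hn hcn this
  rcases lt_or_gt_of_ne (fderiv_ne_zero hW hF hg (hνn x₀ hxs)) with h | h
  · have h4 : ∀ᶠ x in 𝓝 x₀, fderiv ℝ g (F x) (ν x) < 0 := hcont.eventually (gt_mem_nhds h)
    have h5 : N =ᶠ[𝓝 x₀] fun x => - ν x := by
      filter_upwards [e1, e2, e3, h4] with x a b c' d
      exact huniq x _ (hneg x _ (hνn x c')) (side a b (by rw [map_neg]; linarith))
    exact (hνs.neg).congr_of_eventuallyEq h5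
  · have h4 : ∀ᶠ x in 𝓝 x₀, 0 < fderiv ℝ g (F x) (ν x) := hcont.eventually (lt_mem_nhds h)
    have h5 : N =ᶠ[𝓝 x₀] ν := by
      filter_upwards [e1, e2, e3, h4] with x a b c' d
      exact huniq x _ (hνn x c') (side a b d)
    exact hνs.congr_of_eventuallyEq h5


variable [MeasurableSpace V] [BorelSpace V] [MeasurableSpace W] [BorelSpace W]
  [MeasurableSpace M] [BorelSpace M]

lemma IsCol.cases {C O : Set W} {c : W → ℝ} (h : IsCol C O c) {y : W} (hy : y ∈ O) :
    c y = -1 ∨ c y = 0 ∨ c y = 1 := by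
  obtain ⟨g, -, hg⟩ := h y hy
  rw [hg.self_of_nhds]
  exact Real.sign_apply_eq _

lemma IsCol.isOpen_one {C O : Set W} {c : W → ℝ} (hO : IsOpen O) (h : IsCol C O c) :
    IsOpen {y | y ∈ O ∧ c y = 1} := by
  rw [isOpen_iff_mem_nhds]
  rintro y ⟨hy, h1⟩
  obtain ⟨g, hg, hcg⟩ := h y hy
  have h2 := hcg.self_of_nhds
  have h3 : 0 < g y := by
    rw [h1] at h2
    by_contra h
    push Not at h
    rcases h.lt_or_eq with h | h
    · rw [Real.sign_of_neg h] at h2
      norm_num at h2
    · rw [h, Real.sign_zero] at h2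
      norm_num at h2
  filter_upwards [hcg, hO.mem_nhds hy, hg.smooth.continuousAt.eventually (lt_mem_nhds h3)]
    with z a b d
  exact ⟨b, by rw [a, Real.sign_of_pos d]⟩

theorem exists_colData [IsManifold 𝓘(ℝ, V) ∞ M] [CompactSpace M]
    (hW : finrank ℝ W = finrank ℝ V + 2) (hm : 0 < finrank ℝ V) {F : M → W} (hF : SphImm V F)
    (hinj : Function.Injective F) : ∃ (N : M → W) (c : W → ℝ), ColData (V := V) F N c := by
  classical
  obtain ⟨c, hc⟩ := exists_col hW hm hF hinj
  have hO : IsOpen {y : W | y ≠ 0} := isOpen_ne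
  set c' : W → ℝ := fun y => if y = 0 then 0 else c y with hc'
  have hcol : IsCol (cone F) {y : W | y ≠ 0} c' := by
    intro y hy
    obtain ⟨g, hg, hcg⟩ := hc y hy
    refine ⟨g, hg, ?_⟩
    filter_upwards [hcg, hO.mem_nhds hy] with z a b
    simp only [hc']
    rw [if_neg b, a]
  have hr : range F ⊆ {y : W | y ≠ 0} := by
    rintro _ ⟨x, rfl⟩ h0
    have := hF.unit x
    rw [h0, norm_zero] at this
    exact zero_ne_one this
  obtain ⟨N, hN1, hN2, hN3⟩ := exists_normal_side hW hF (hcol.mono hr)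
  have h0 : c' 0 = 0 := by simp [hc']
  have hcases : ∀ y, c' y = -1 ∨ c' y = 0 ∨ c' y = 1 := by
    intro y
    by_cases hy : y = 0
    · rw [hy, h0]
      exact Or.inr (Or.inl rfl)
    · exact IsCol.cases hcol (y := y) hy
  refine ⟨N, c', hcol, ?_, ?_, hN1, hN2, hN3⟩
  · have hp := (IsCol.isOpen_one hO hcol).measurableSet
    have hn := (IsCol.isOpen_one hO hcol.neg).measurableSet
    have e : c' = fun y => ({y | y ∈ {y : W | y ≠ 0} ∧ c' y = 1}).indicator (fun _ => (1 : ℝ)) y
        - ({y | y ∈ {y : W | y ≠ 0} ∧ (fun z => - c' z) y = 1}).indicator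
          (fun _ => (1 : ℝ)) y := by
      ext y
      by_cases hy : y = 0
      · rw [hy, h0, indicator_of_notMem (fun h => h.1 rfl), indicator_of_notMem (fun h => h.1 rfl),
          sub_zero]
      · rcases hcases y with h | h | h
        · have hmem : y ∈ {y | y ∈ {y : W | y ≠ 0} ∧ (fun z => - c' z) y = 1} :=
            ⟨hy, by simp only [h]; norm_num⟩
          rw [indicator_of_notMem (fun h' => by have := h'.2; rw [h] at this; norm_num at this),
            indicator_of_mem hmem, h]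
          norm_num
        · rw [indicator_of_notMem (fun h' => by have := h'.2; rw [h] at this; norm_num at this),
            indicator_of_notMem (fun h' => by
              have := h'.2
              simp only [h] at this
              norm_num at this), h]
          norm_num
        · have hmem : y ∈ {y | y ∈ {y : W | y ≠ 0} ∧ c' y = 1} := ⟨hy, h⟩
          rw [indicator_of_mem hmem, indicator_of_notMem (fun h' => by
              have := h'.2
              simp only [h] at this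
              norm_num at this), h]
          norm_num
    rw [e]
    exact (measurable_const.indicator hp).sub (measurable_const.indicator hn)
  · intro y
    rcases hcases y with h | h | h <;> rw [h] <;> norm_num

end Vale.Agent.P224.TP
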