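import Vale.Agent.P224.TP.GaussInt

/-!
The Gaussian limit of the divergence identity: the integral of the normal field of a closed
embedded hypersurface of the sphere has norm at most the volume of the unit sphere.
-/

namespace Vale.Agent.P224.TP

open Set Filter Metric Module MeasureTheory Vale.Agent.P224 Vale.Agent.P224.TwoSide
open scoped Topology RealInnerProductSpace ContDiff Manifold

set_option linter.unusedSectionVars false

section cut

open Real

lemma exists_deriv_bound : ∃ C : ℝ, 0 ≤ C ∧ ∀ x, |deriv smoothTransition x| ≤ C := by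
  have hc : Continuous (deriv smoothTransition) :=
    (smoothTransition.contDiff (n := 1)).continuous_deriv le_rfl
  obtain ⟨C, hC⟩ := (isCompact_Icc (a := (-1 : ℝ)) (b := 2)).exists_bound_of_continuousOn
    hc.continuousOn
  refine ⟨max C 0, le_max_right _ _, fun x => ?_⟩
  by_cases hx : x ∈ Icc (-1 : ℝ) 2
  · exact (hC x hx).trans (le_max_left _ _)
  · rw [mem_Icc, not_and_or, not_le, not_le] at hx
    have h0 : deriv smoothTransition x = 0 := by
      rcases hx with hx | hx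
      · have : smoothTransition =ᶠ[𝓝 x] fun _ => 0 := by
          filter_upwards [Iio_mem_nhds hx] with y hy
          exact smoothTransition.zero_of_nonpos (by have : y < -1 := hy; linarith)
        rw [this.deriv_eq, deriv_const]
      · have : smoothTransition =ᶠ[𝓝 x] fun _ => 1 := by
          filter_upwards [Ioi_mem_nhds hx] with y hy
          exact smoothTransition.one_of_one_le (by have : 2 < y := hy; linarith)
        rw [this.deriv_eq, deriv_const]
    rw [h0, abs_zero]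
    exact le_max_right _ _

lemma deriv_trans_zero {x : ℝ} (hx : 1 < x) : deriv smoothTransition x = 0 := by
  have : smoothTransition =ᶠ[𝓝 x] fun _ => 1 := by
    filter_upwards [Ioi_mem_nhds hx] with y hy
    exact smoothTransition.one_of_one_le (le_of_lt hy)
  rw [this.deriv_eq, deriv_const]

/-- the cut off profile -/
noncomputable def gc (ε t : ℝ) : ℝ :=
  Real.exp (-t) * (smoothTransition (2 * t / ε ^ 2 - 1) * smoothTransition (2 - ε * t))

lemma gc_contDiff (ε : ℝ) : ContDiff ℝ 1 (gc ε) := by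
  unfold gc
  have h1 : ContDiff ℝ 1 fun t : ℝ => smoothTransition (2 * t / ε ^ 2 - 1) :=
    smoothTransition.contDiff.comp (by fun_prop)
  have h2 : ContDiff ℝ 1 fun t : ℝ => smoothTransition (2 - ε * t) :=
    smoothTransition.contDiff.comp (by fun_prop)
  have h3 : ContDiff ℝ 1 fun t : ℝ => Real.exp (-t) := by fun_prop
  exact h3.mul (h1.mul h2)

lemma gc_nonneg (ε t : ℝ) : 0 ≤ gc ε t :=
  mul_nonneg (Real.exp_pos _).le
    (mul_nonneg (smoothTransition.nonneg _) (smoothTransition.nonneg _))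

lemma gc_le (ε t : ℝ) : gc ε t ≤ Real.exp (-t) := by
  unfold gc
  have := mul_le_one₀ (smoothTransition.le_one (2 * t / ε ^ 2 - 1)) (smoothTransition.nonneg _)
    (smoothTransition.le_one (2 - ε * t))
  exact mul_le_of_le_one_right (Real.exp_pos _).le this

lemma gc_eq_zero_left {ε t : ℝ} (hε : 0 < ε) (ht : t ≤ ε ^ 2 / 2) : gc ε t = 0 := by
  unfold gc
  rw [smoothTransition.zero_of_nonpos (x := 2 * t / ε ^ 2 - 1)]
  · ring
  · rw [sub_nonpos, div_le_one (by positivity)]
    linarith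

lemma gc_eq_zero_right {ε t : ℝ} (hε : 0 < ε) (ht : 2 / ε ≤ t) : gc ε t = 0 := by
  unfold gc
  rw [smoothTransition.zero_of_nonpos (x := 2 - ε * t)]
  · ring
  · rw [div_le_iff₀ hε] at ht
    linarith

lemma gc_eq {ε t : ℝ} (hε : 0 < ε) (h1 : ε ^ 2 ≤ t) (h2 : ε * t ≤ 1) : gc ε t = Real.exp (-t) := by
  unfold gc
  rw [smoothTransition.one_of_one_le (x := 2 * t / ε ^ 2 - 1),
    smoothTransition.one_of_one_le (x := 2 - ε * t)]
  · ring
  · linarith
  · have : 1 ≤ t / ε ^ 2 := by rwa [one_le_div (by positivity)]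
    rw [mul_div_assoc]
    linarith

lemma deriv_gc_le {C : ℝ} (hC0 : 0 ≤ C) (hC : ∀ x, |deriv smoothTransition x| ≤ C) {ε t : ℝ}
    (hε : 0 < ε) (ht : 0 ≤ t) :
    |deriv (gc ε) t| ≤ Real.exp (-t) * (1 + C * ε) +
      (if t ≤ ε ^ 2 then 2 / ε ^ 2 * C else 0) := by
  have hd : ∀ x, HasDerivAt smoothTransition (deriv smoothTransition x) x := fun x =>
    ((smoothTransition.contDiff (n := 1)).differentiable one_ne_zero x).hasDerivAt
  have h1 : HasDerivAt (fun t : ℝ => smoothTransition (2 * t / ε ^ 2 - 1))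
      (deriv smoothTransition (2 * t / ε ^ 2 - 1) * (2 / ε ^ 2)) t := by
    have h' : HasDerivAt (fun t : ℝ => 2 * t / ε ^ 2 - 1) (2 / ε ^ 2) t := by
      simpa using (((hasDerivAt_id t).const_mul 2).div_const (ε ^ 2)).sub_const 1
    exact HasDerivAt.comp t (hd (2 * t / ε ^ 2 - 1)) h'
  have h2 : HasDerivAt (fun t : ℝ => smoothTransition (2 - ε * t))
      (deriv smoothTransition (2 - ε * t) * (-ε)) t := by
    have h' : HasDerivAt (fun t : ℝ => 2 - ε * t) (-ε) t := by
      simpa using ((hasDerivAt_id t).const_mul ε).const_sub 2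
    exact HasDerivAt.comp t (hd (2 - ε * t)) h'
  have h3 : HasDerivAt (fun t : ℝ => Real.exp (-t)) (-Real.exp (-t)) t := by
    have h := (hasDerivAt_neg t).exp
    simpa using h
  have h4 : HasDerivAt (gc ε) _ t := h3.mul (h1.mul h2)
  rw [h4.deriv]
  set A := smoothTransition (2 * t / ε ^ 2 - 1) with hA
  set B := smoothTransition (2 - ε * t) with hB
  set A' := deriv smoothTransition (2 * t / ε ^ 2 - 1) with hA'
  set B' := deriv smoothTransition (2 - ε * t) with hB'
  have hA0 : 0 ≤ A := smoothTransition.nonneg _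
  have hB0 : 0 ≤ B := smoothTransition.nonneg _
  have hA1 : A ≤ 1 := smoothTransition.le_one _
  have hB1 : B ≤ 1 := smoothTransition.le_one _
  have hE0 : 0 < Real.exp (-t) := Real.exp_pos _
  have hE1 : Real.exp (-t) ≤ 1 := by
    rw [Real.exp_le_one_iff]; linarith
  have hB'' : |B'| ≤ C := hC _
  have e1 : |-Real.exp (-t) * (A * B)| ≤ Real.exp (-t) := by
    rw [abs_mul, abs_neg, abs_of_pos hE0, abs_of_nonneg (mul_nonneg hA0 hB0)]
    exact mul_le_of_le_one_right hE0.le (mul_le_one₀ hA1 hB0 hB1)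
  have e2 : |Real.exp (-t) * (A' * (2 / ε ^ 2) * B)| ≤
      (if t ≤ ε ^ 2 then 2 / ε ^ 2 * C else 0) := by
    split_ifs with h
    · rw [abs_mul, abs_mul, abs_mul, abs_of_pos hE0, abs_of_nonneg hB0,
        abs_of_pos (show 0 < 2 / ε ^ 2 by positivity)]
      have hq : 0 ≤ |A'| := abs_nonneg _
      have hA'' : |A'| ≤ C := hC _
      calc Real.exp (-t) * (|A'| * (2 / ε ^ 2) * B) ≤ 1 * (C * (2 / ε ^ 2) * 1) := by
            gcongr
        _ = 2 / ε ^ 2 * C := by ring
    · have : A' = 0 := by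
        apply deriv_trans_zero
        rw [not_le] at h
        have : 1 < t / ε ^ 2 := by rwa [one_lt_div (by positivity)]
        rw [mul_div_assoc]
        linarith
      rw [this]
      simp
  have e3 : |Real.exp (-t) * (A * (B' * -ε))| ≤ Real.exp (-t) * (C * ε) := by
    rw [abs_mul, abs_mul, abs_mul, abs_of_pos hE0, abs_of_nonneg hA0, abs_neg, abs_of_pos hε]
    have hq : 0 ≤ |B'| := abs_nonneg _
    calc Real.exp (-t) * (A * (|B'| * ε)) ≤ Real.exp (-t) * (1 * (C * ε)) := by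
          gcongr
      _ = _ := by ring
  calc |-Real.exp (-t) * (A * B) +
          Real.exp (-t) * (A' * (2 / ε ^ 2) * B + A * (B' * -ε))|
      = |-Real.exp (-t) * (A * B) + Real.exp (-t) * (A' * (2 / ε ^ 2) * B)
          + Real.exp (-t) * (A * (B' * -ε))| := by
        congr 1; ring
    _ ≤ |-Real.exp (-t) * (A * B)| + |Real.exp (-t) * (A' * (2 / ε ^ 2) * B)|
          + |Real.exp (-t) * (A * (B' * -ε))| := by
        exact (abs_add_le _ _).trans (add_le_add_left (abs_add_le _ _) _)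
    _ ≤ Real.exp (-t) + (if t ≤ ε ^ 2 then 2 / ε ^ 2 * C else 0) + Real.exp (-t) * (C * ε) := by
        linarith
    _ = _ := by ring

end cut

section main

variable {V W M : Type*} [NormedAddCommGroup V] [InnerProductSpace ℝ V] [FiniteDimensional ℝ V]
  [NormedAddCommGroup W] [InnerProductSpace ℝ W] [FiniteDimensional ℝ W]
  [TopologicalSpace M] [ChartedSpace V M]
  [MeasurableSpace V] [BorelSpace V] [MeasurableSpace W] [BorelSpace W]
  [MeasurableSpace M] [BorelSpace M]

/-- the test function -/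
noncomputable def et (ε : ℝ) (y : W) : ℝ := gc ε (‖y‖ ^ 2)

lemma et_contDiff (ε : ℝ) : ContDiff ℝ 1 (et ε : W → ℝ) :=
  (gc_contDiff ε).comp (contDiff_norm_sq ℝ)

lemma et_support {ε : ℝ} (hε : 0 < ε) {y : W} (hy : et ε y ≠ 0) :
    ε ^ 2 / 2 < ‖y‖ ^ 2 ∧ ‖y‖ ^ 2 < 2 / ε := by
  constructor
  · by_contra h
    exact hy (gc_eq_zero_left hε (not_lt.mp h))
  · by_contra h
    exact hy (gc_eq_zero_right hε (not_lt.mp h))

lemma et_tsupport {ε : ℝ} (hε : 0 < ε) {y : W} (hy : y ∈ tsupport (et ε : W → ℝ)) :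
    ε ^ 2 / 2 ≤ ‖y‖ ^ 2 ∧ ‖y‖ ^ 2 ≤ 2 / ε := by
  have hcl : IsClosed ({y : W | ε ^ 2 / 2 ≤ ‖y‖ ^ 2} ∩ {y : W | ‖y‖ ^ 2 ≤ 2 / ε}) :=
    (isClosed_le (by fun_prop) (by fun_prop)).inter (isClosed_le (by fun_prop) (by fun_prop))
  exact closure_minimal (t := {y : W | ε ^ 2 / 2 ≤ ‖y‖ ^ 2} ∩ {y : W | ‖y‖ ^ 2 ≤ 2 / ε})
    (fun y hy => ⟨(et_support hε hy).1.le, (et_support hε hy).2.le⟩) hcl hy

lemma et_compact {ε : ℝ} (hε : 0 < ε) : HasCompactSupport (et ε : W → ℝ) := by
  apply HasCompactSupport.of_support_subset_isCompact (isCompact_closedBall (0 : W) (√(2 / ε)))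
  intro y hy
  rw [mem_closedBall_zero_iff]
  exact Real.le_sqrt_of_sq_le (et_support hε hy).2.le

lemma et_zero {ε : ℝ} (hε : 0 < ε) : (0 : W) ∉ tsupport (et ε : W → ℝ) := by
  intro h
  have := (et_tsupport hε h).1
  simp only [norm_zero] at this
  nlinarith [pow_pos hε 2]

lemma et_fderiv (ε : ℝ) (y a : W) :
    fderiv ℝ (et ε) y a = deriv (gc ε) (‖y‖ ^ 2) * (2 * ⟪y, a⟫) := by
  have h1 : HasDerivAt (gc ε) (deriv (gc ε) (‖y‖ ^ 2)) (‖y‖ ^ 2) :=
    ((gc_contDiff ε).differentiable one_ne_zero _).hasDerivAt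
  have h2 := h1.comp_hasFDerivAt y ((hasStrictFDerivAt_norm_sq y).hasFDerivAt)
  have h3 : fderiv ℝ (et ε) y = _ := h2.fderiv
  rw [h3]
  simp

lemma et_fderiv_le {C : ℝ} (hC0 : 0 ≤ C) (hC : ∀ x, |deriv Real.smoothTransition x| ≤ C) {ε : ℝ}
    (hε : 0 < ε) (y a : W) :
    |fderiv ℝ (et ε) y a| ≤ 2 * (1 + C * ε) * (|⟪y, a⟫| * Real.exp (-‖y‖ ^ 2)) +
      (closedBall (0 : W) ε).indicator (fun _ => 4 * C / ε * ‖a‖) y := by
  rw [et_fderiv, abs_mul, abs_mul, abs_two]
  have h1 := deriv_gc_le hC0 hC hε (sq_nonneg ‖y‖)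
  have h2 : 0 ≤ |⟪y, a⟫| := abs_nonneg _
  calc |deriv (gc ε) (‖y‖ ^ 2)| * (2 * |⟪y, a⟫|)
      ≤ (Real.exp (-‖y‖ ^ 2) * (1 + C * ε) +
      (if ‖y‖ ^ 2 ≤ ε ^ 2 then 2 / ε ^ 2 * C else 0)) * (2 * |⟪y, a⟫|) := by gcongr
    _ = 2 * (1 + C * ε) * (|⟪y, a⟫| * Real.exp (-‖y‖ ^ 2)) +
        (if ‖y‖ ^ 2 ≤ ε ^ 2 then 2 / ε ^ 2 * C else 0) * (2 * |⟪y, a⟫|) := by ring
    _ ≤ _ := by
        gcongr
        by_cases h : ‖y‖ ≤ ε
        · rw [indicator_of_mem (by rwa [mem_closedBall_zero_iff]),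
            if_pos (pow_le_pow_left₀ (norm_nonneg _) h 2)]
          have h3 : |⟪y, a⟫| ≤ ε * ‖a‖ :=
            (abs_real_inner_le_norm y a).trans (mul_le_mul_of_nonneg_right h (norm_nonneg _))
          calc 2 / ε ^ 2 * C * (2 * |⟪y, a⟫|) ≤ 2 / ε ^ 2 * C * (2 * (ε * ‖a‖)) := by gcongr
            _ = 4 * C / ε * ‖a‖ := by field_simp; ring
        · rw [indicator_of_notMem (by rwa [mem_closedBall_zero_iff]), if_neg, zero_mul]
          intro h'
          exact h ((pow_le_pow_iff_left₀ (norm_nonneg _) hε.le two_ne_zero).mp h')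

/-- the divergence identity for the test function -/
lemma bound_eps [IsManifold 𝓘(ℝ, V) ∞ M] [CompactSpace M]
    {F N : M → W} (hF : SphImm V F) {c : W → ℝ} (hc : ColData (V := V) F N c)
    (h : ∀ (a : W) (η : W → ℝ), ContDiff ℝ 1 η → HasCompactSupport η → 0 ∉ tsupport η →
      DivId V F N c a η) {C : ℝ} (hC0 : 0 ≤ C)
    (hC : ∀ x, |deriv Real.smoothTransition x| ≤ C) {ε : ℝ} (hε : 0 < ε) (a : W) :
    2 * |⟪∫ x, N x ∂(volM V F), a⟫| * ∫ r in Ioi (0 : ℝ), gc ε (r ^ 2) * r ^ finrank ℝ V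
      ≤ 2 * (1 + C * ε) * (∫ y : W, |⟪y, a⟫| * Real.exp (-‖y‖ ^ 2))
        + 4 * C / ε * ‖a‖ * volume.real (closedBall (0 : W) ε) := by
  have hfin : IsFiniteMeasure (volM V F) := isFiniteMeasure_volM hF
  have hd := h a (et ε) (et_contDiff ε) (et_compact hε) (et_zero hε)
  unfold DivId at hd
  set I := ∫ r in Ioi (0 : ℝ), gc ε (r ^ 2) * r ^ finrank ℝ V with hI
  have hI0 : 0 ≤ I := by
    apply setIntegral_nonneg measurableSet_Ioi
    intro r hr
    exact mul_nonneg (gc_nonneg _ _) (pow_nonneg (le_of_lt hr) _)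
  have hin : ∀ x, ∫ r in Ioi (0 : ℝ), et ε (r • F x) * r ^ finrank ℝ V = I := by
    intro x
    refine setIntegral_congr_fun measurableSet_Ioi fun r _ => ?_
    simp only [et]
    rw [norm_smul, hF.unit, mul_one, Real.norm_eq_abs, sq_abs]
  simp only [hin] at hd
  have hNc : Continuous N := hc.smooth.continuous
  have hNi : Integrable N (volM V F) := hNc.integrable_of_hasCompactSupport
    (HasCompactSupport.of_compactSpace _)
  have hin2 : ∫ x, ⟪N x, a⟫ ∂(volM V F) = ⟪∫ x, N x ∂(volM V F), a⟫ := by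
    rw [real_inner_comm]
    have := (innerSL ℝ a).integral_comp_comm hNi
    simp only [innerSL_apply_apply] at this
    rw [← this]
    refine integral_congr_ae (Eventually.of_forall fun x => ?_)
    exact real_inner_comm _ _
  rw [integral_mul_const, hin2] at hd
  have hb1 : Integrable fun y : W => 2 * (1 + C * ε) * (|⟪y, a⟫| * Real.exp (-‖y‖ ^ 2)) :=
    (gauss_abs_integrable a).const_mul _
  have hb2 : Integrable fun y : W => (closedBall (0 : W) ε).indicator
      (fun _ => 4 * C / ε * ‖a‖) y := by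
    rw [integrable_indicator_iff measurableSet_closedBall]
    exact integrableOn_const measure_closedBall_lt_top.ne
  have h1 : ‖∫ y, c y * fderiv ℝ (et ε) y a‖ ≤
      ∫ y : W, (2 * (1 + C * ε) * (|⟪y, a⟫| * Real.exp (-‖y‖ ^ 2)) +
      (closedBall (0 : W) ε).indicator (fun _ => 4 * C / ε * ‖a‖) y) := by
    apply norm_integral_le_of_norm_le (hb1.add hb2)
    refine Eventually.of_forall fun y => ?_
    rw [norm_mul, Real.norm_eq_abs, Real.norm_eq_abs]
    calc |c y| * |fderiv ℝ (et ε) y a| ≤ 1 * |fderiv ℝ (et ε) y a| :=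
          mul_le_mul_of_nonneg_right (hc.bdd y) (abs_nonneg _)
      _ = |fderiv ℝ (et ε) y a| := one_mul _
      _ ≤ _ := et_fderiv_le hC0 hC hε y a
  rw [integral_add hb1 hb2, integral_const_mul, integral_indicator_const _ measurableSet_closedBall,
    hd, smul_eq_mul] at h1
  rw [Real.norm_eq_abs, abs_mul, abs_mul, abs_neg, abs_two, abs_of_nonneg hI0] at h1
  linarith

/-- the integral of the normal field of a closed embedded hypersurface of the sphere -/
theorem gauss_bound [IsManifold 𝓘(ℝ, V) ∞ M] [CompactSpace M]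
    (hW : finrank ℝ W = finrank ℝ V + 2) {F N : M → W} (hF : SphImm V F) {c : W → ℝ}
    (hc : ColData (V := V) F N c)
    (h : ∀ (a : W) (η : W → ℝ), ContDiff ℝ 1 η → HasCompactSupport η → 0 ∉ tsupport η →
      DivId V F N c a η) :
    ‖∫ x, N x ∂(volM V F)‖ ≤ sphereVol (finrank ℝ V) := by
  set m := finrank ℝ V with hm
  set v := ∫ x, N x ∂(volM V F) with hv
  obtain ⟨C, hC0, hC⟩ := exists_deriv_bound
  -- the limit of the radial integrals
  have hlimI : Tendsto (fun ε : ℝ => ∫ r in Ioi (0 : ℝ), gc ε (r ^ 2) * r ^ m) (𝓝[>] 0)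
      (𝓝 (Real.Gamma (((m : ℝ) + 1) / 2) / 2)) := by
    rw [← gauss_moment]
    apply tendsto_integral_filter_of_dominated_convergence
      (fun r : ℝ => Real.exp (-r ^ 2) * r ^ m)
    · refine Eventually.of_forall fun ε => ?_
      have : Continuous fun r : ℝ => gc ε (r ^ 2) * r ^ m :=
        ((gc_contDiff ε).continuous.comp (by fun_prop)).mul (by fun_prop)
      exact this.aestronglyMeasurable
    · refine Eventually.of_forall fun ε => ?_
      filter_upwards [self_mem_ae_restrict measurableSet_Ioi] with r hr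
      have hr' : (0 : ℝ) < r := hr
      rw [norm_mul, Real.norm_eq_abs, Real.norm_eq_abs, abs_of_nonneg (gc_nonneg _ _),
        abs_of_nonneg (pow_nonneg hr'.le _)]
      exact mul_le_mul_of_nonneg_right (gc_le _ _) (pow_nonneg hr'.le _)
    · exact gauss_moment_integrable m
    · filter_upwards [self_mem_ae_restrict measurableSet_Ioi] with r hr
      have hr' : (0 : ℝ) < r := hr
      have h1 : ∀ᶠ ε : ℝ in 𝓝[>] 0, ε < r := by
        exact nhdsWithin_le_nhds (Iio_mem_nhds hr')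
      have h2 : ∀ᶠ ε : ℝ in 𝓝[>] 0, ε < 1 / r ^ 2 := by
        exact nhdsWithin_le_nhds (Iio_mem_nhds (by positivity))
      refine tendsto_const_nhds.congr' ?_
      filter_upwards [h1, h2, self_mem_nhdsWithin] with ε he1 he2 he3
      have he3' : 0 < ε := he3
      rw [gc_eq he3' (pow_le_pow_left₀ he3'.le he1.le 2)]
      rw [lt_div_iff₀ (by positivity)] at he2
      exact he2.le
  have hnW : finrank ℝ W = (m + 1) + 1 := by rw [hW]
  have hG := gauss_abs hnW v
  have hb : ∀ ε : ℝ, 0 < ε → 2 * |⟪v, v⟫| * ∫ r in Ioi (0 : ℝ), gc ε (r ^ 2) * r ^ m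
      ≤ 2 * (1 + C * ε) * (Real.pi ^ (((m + 1 : ℕ) : ℝ) / 2) * ‖v‖)
        + 4 * C * ‖v‖ * volume.real (ball (0 : W) 1) * ε ^ (m + 1) := by
    intro ε hε
    have h1 := bound_eps hF hc h hC0 hC hε v
    rw [hG] at h1
    refine h1.trans (le_of_eq ?_)
    congr 1
    rw [measureReal_def, Measure.addHaar_closedBall _ _ hε.le, ENNReal.toReal_mul,
      ENNReal.toReal_ofReal (by positivity), hW, ← measureReal_def]
    have : ε ^ (m + 2) = ε * ε ^ (m + 1) := by ring
    rw [this]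
    field_simp
  have hlimR : Tendsto (fun ε : ℝ => 2 * (1 + C * ε) * (Real.pi ^ (((m + 1 : ℕ) : ℝ) / 2) * ‖v‖)
        + 4 * C * ‖v‖ * volume.real (ball (0 : W) 1) * ε ^ (m + 1)) (𝓝[>] 0)
      (𝓝 (2 * (1 + C * 0) * (Real.pi ^ (((m + 1 : ℕ) : ℝ) / 2) * ‖v‖)
        + 4 * C * ‖v‖ * volume.real (ball (0 : W) 1) * 0 ^ (m + 1))) := by
    apply tendsto_nhdsWithin_of_tendsto_nhds
    apply Continuous.tendsto
    fun_prop
  have hfinal := le_of_tendsto_of_tendsto (hlimI.const_mul (2 * |⟪v, v⟫|)) hlimR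
    (by filter_upwards [self_mem_nhdsWithin] with ε hε using hb ε hε)
  rw [real_inner_self_eq_norm_sq, abs_of_nonneg (sq_nonneg _), zero_pow (by omega)] at hfinal
  have hΓ : 0 < Real.Gamma (((m : ℝ) + 1) / 2) := Real.Gamma_pos_of_pos (by positivity)
  rcases (norm_nonneg v).eq_or_lt with h0 | h0
  · rw [← h0]
    unfold sphereVol
    positivity
  · have h3 : ‖v‖ * (‖v‖ * Real.Gamma (((m : ℝ) + 1) / 2)) ≤
        ‖v‖ * (2 * Real.pi ^ (((m : ℝ) + 1) / 2)) := by
      have : (((m + 1 : ℕ) : ℝ)) = (m : ℝ) + 1 := by push_cast; ring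
      rw [this] at hfinal
      nlinarith
    have h4 := le_of_mul_le_mul_left h3 h0
    unfold sphereVol
    rw [le_div_iff₀ hΓ]
    exact h4

end main

end Vale.Agent.P224.TP
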