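import Vale.Agent.P224.TP.Defs

/-!
The divergence identity near the points off the cone.
-/

namespace Vale.Agent.P224.TP

open Set Filter Metric Module MeasureTheory Vale.Agent.P224 Vale.Agent.P224.TwoSide
open scoped Topology RealInnerProductSpace ContDiff Manifold

set_option linter.unusedSectionVars false

variable {V W M : Type*} [NormedAddCommGroup V] [InnerProductSpace ℝ V] [FiniteDimensional ℝ V]
  [NormedAddCommGroup W] [InnerProductSpace ℝ W] [FiniteDimensional ℝ W]
  [TopologicalSpace M] [ChartedSpace V M]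
  [MeasurableSpace V] [BorelSpace V] [MeasurableSpace W] [BorelSpace W]
  [MeasurableSpace M] [BorelSpace M]

/-- the integral of a derivative -/
lemma integral_fderiv_zero (a : W) {η : W → ℝ} (hη : ContDiff ℝ 1 η) (hc : HasCompactSupport η) :
    ∫ y, fderiv ℝ η y a = 0 := by
  have h1 : Continuous (fun y => fderiv ℝ η y a) :=
    (hη.continuous_fderiv one_ne_zero).clm_apply continuous_const
  have h2 : HasCompactSupport (fun y => fderiv ℝ η y a) := hc.fderiv_apply ℝ a
  have h3 : Integrable (fun y => fderiv ℝ η y a) := h1.integrable_of_hasCompactSupport h2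
  have h4 : Integrable η := hη.continuous.integrable_of_hasCompactSupport hc
  have h5 := integral_mul_fderiv_eq_neg_fderiv_mul_of_integrable (μ := (volume : Measure W))
    (f := fun _ : W => (1 : ℝ)) (g := η) (v := a) (by simp) (by simpa using h3)
    (by simpa using h4) (fun x _ => differentiableAt_const _)
    (fun x _ => (hη.differentiable one_ne_zero).differentiableAt)
  simpa using h5

theorem local_off [IsManifold 𝓘(ℝ, V) ∞ M] [CompactSpace M] (hW : finrank ℝ W = finrank ℝ V + 2)
    {F N : M → W} (hF : SphImm V F) {c : W → ℝ} (hc : ColData (V := V) F N c) {y : W}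
    (hy : y ≠ 0) (hyc : y ∉ cone F) (a : W) :
    ∃ O ∈ 𝓝 y, ∀ η : W → ℝ, ContDiff ℝ 1 η → HasCompactSupport η → tsupport η ⊆ O →
      DivId V F N c a η := by
  obtain ⟨g, hg, hcg⟩ := hc.col y hy
  have hgy : g y ≠ 0 := fun h => hyc (hg.zero.self_of_nhds.1 h)
  have h1 : ∀ᶠ z in 𝓝 y, z ∉ cone F := by
    filter_upwards [(goodAt_off hF.smooth.continuous hF.unit hy hyc).zero] with z hz
    intro h
    exact one_ne_zero (hz.2 h)
  have h2 : ∀ᶠ z in 𝓝 y, c z = Real.sign (g y) := by
    rcases lt_or_gt_of_ne hgy with h | h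
    · filter_upwards [hcg, hg.smooth.continuousAt.eventually (gt_mem_nhds h)] with z hz hz'
      rw [hz, Real.sign_of_neg hz', Real.sign_of_neg h]
    · filter_upwards [hcg, hg.smooth.continuousAt.eventually (lt_mem_nhds h)] with z hz hz'
      rw [hz, Real.sign_of_pos hz', Real.sign_of_pos h]
  refine ⟨{z | z ∉ cone F ∧ c z = Real.sign (g y)}, h1.and h2, fun η hη hs hsub => ?_⟩
  unfold DivId
  have e1 : ∀ z, c z * fderiv ℝ η z a = Real.sign (g y) * fderiv ℝ η z a := by
    intro z
    by_cases hz : z ∈ tsupport η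
    · rw [(hsub hz).2]
    · have : fderiv ℝ η z = 0 := by
        have := support_fderiv_subset ℝ (f := η)
        by_contra h
        exact hz (this h)
      rw [this]
      simp
  have e2 : ∀ x, ∫ r in Ioi (0 : ℝ), η (r • F x) * r ^ finrank ℝ V = 0 := by
    intro x
    refine integral_eq_zero_of_ae ((ae_restrict_iff' measurableSet_Ioi).2
      (Eventually.of_forall fun r hr => ?_))
    have : r • F x ∉ tsupport η := fun h => (hsub h).1 ⟨r, hr, x, rfl⟩
    simp only [image_eq_zero_of_notMem_tsupport this, zero_mul, Pi.zero_apply]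
  simp only [e1, e2]
  rw [integral_const_mul, integral_fderiv_zero a hη hs]
  simp

end Vale.Agent.P224.TP
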