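import Vale.Agent.P224.TP.Loc
import Vale.Agent.P224.TP.Off
import Vale.Agent.P224.TP.Data
import Vale.Agent.P224.TP.Gauss

/-!
The integral of the unit normal of a closed embedded hypersurface of the sphere.
-/

namespace Vale.Agent.P224.TP

open Set Filter Metric Module MeasureTheory Vale.Agent.P224 Vale.Agent.P224.TwoSide
open scoped Topology RealInnerProductSpace ContDiff Manifold

set_option linter.unusedSectionVars false

variable {V W M : Type*} [NormedAddCommGroup V] [InnerProductSpace ℝ V] [FiniteDimensional ℝ V]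
  [NormedAddCommGroup W] [InnerProductSpace ℝ W] [FiniteDimensional ℝ W]
  [TopologicalSpace M] [ChartedSpace V M]
  [MeasurableSpace V] [BorelSpace V] [MeasurableSpace M] [BorelSpace M]

/-- A closed embedded hypersurface of the unit sphere has a smooth unit normal field whose integral
has norm at most the volume of the equator. -/
theorem exists_normal_le [IsManifold 𝓘(ℝ, V) ∞ M] [CompactSpace M]
    (hW : finrank ℝ W = finrank ℝ V + 2) (hm : 0 < finrank ℝ V) {F : M → W} (hF : SphImm V F)
    (hinj : Function.Injective F) :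
    ∃ N : M → W, ContMDiff 𝓘(ℝ, V) 𝓘(ℝ, W) ∞ N ∧ (∀ x, IsUnitNormal V F x (N x)) ∧
      ‖∫ x, N x ∂(volM V F)‖ ≤ sphereVol (finrank ℝ V) := by
  borelize W
  obtain ⟨N, c, hc⟩ := exists_colData hW hm hF hinj
  refine ⟨N, hc.smooth, hc.normal, gauss_bound hW hF hc fun a η h1 h2 h3 => ?_⟩
  refine globalise hF hc a (fun y hy => ?_) η h1 h2 h3
  by_cases hyc : y ∈ cone F
  · exact local_on hW hF hinj hc hyc a
  · exact local_off hW hF hc hy hyc a

/-- For a connected closed embedded hypersurface of the unit sphere every continuous unit normal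
field has an integral of norm at most the volume of the equator. -/
theorem norm_integral_normal_le [IsManifold 𝓘(ℝ, V) ∞ M] [CompactSpace M] [ConnectedSpace M]
    (hW : finrank ℝ W = finrank ℝ V + 2) (hm : 0 < finrank ℝ V) {F : M → W} (hF : SphImm V F)
    (hinj : Function.Injective F) {N : M → W} (hNc : Continuous N)
    (hN : ∀ x, IsUnitNormal V F x (N x)) :
    ‖∫ x, N x ∂(volM V F)‖ ≤ sphereVol (finrank ℝ V) := by
  obtain ⟨N', hs, hn, hle⟩ := exists_normal_le hW hm hF hinj
  have hpm : ∀ x, N x = N' x ∨ N x = - N' x := by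
    intro x
    obtain ⟨ε₁, hε₁, h1⟩ := unitNormal_eq hW hF x (N x) (hN x)
    obtain ⟨ε₂, hε₂, h2⟩ := unitNormal_eq hW hF x (N' x) (hn x)
    have hε : ∀ ε : ℝ, ε ^ 2 = 1 → ε = 1 ∨ ε = -1 := by
      intro ε h
      have : (ε - 1) * (ε + 1) = 0 := by linarith [h]
      rcases mul_eq_zero.mp this with h | h
      · left; linarith
      · right; linarith
    rw [h1, h2]
    rcases hε _ hε₁ with a | a <;> rcases hε _ hε₂ with b | b <;> simp [a, b]
  have hself : ∀ x, ⟪N' x, N' x⟫ = 1 := by
    intro x
    rw [real_inner_self_eq_norm_sq, (hn x).1]; norm_num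
  set s : M → ℝ := fun x => ⟪N x, N' x⟫ with hsdef
  have hsc : Continuous s := hNc.inner hs.continuous
  have hs1 : ∀ x, (s x = 1 ∧ N x = N' x) ∨ (s x = -1 ∧ N x = - N' x) := by
    intro x
    rcases hpm x with h | h
    · left
      exact ⟨by simp only [hsdef, h, hself], h⟩
    · right
      exact ⟨by simp only [hsdef, h, inner_neg_left, hself], h⟩
  obtain ⟨x₁⟩ : Nonempty M := inferInstance
  have hconst : ∀ x, 0 < s x * s x₁ := by
    intro x
    by_contra hneg
    push Not at hneg
    have hne : s x * s x₁ < 0 := by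
      rcases hneg.lt_or_eq with h | h
      · exact h
      · exfalso
        rcases hs1 x with ⟨a, -⟩ | ⟨a, -⟩ <;> rcases hs1 x₁ with ⟨b, -⟩ | ⟨b, -⟩ <;>
          rw [a, b] at h <;> norm_num at h
    have hpos : 0 < s x₁ * s x₁ := by
      rcases hs1 x₁ with ⟨b, -⟩ | ⟨b, -⟩ <;> rw [b] <;> norm_num
    have hc' : Continuous fun y => s y * s x₁ := hsc.mul continuous_const
    obtain ⟨y, hy⟩ := mem_range_of_exists_le_of_exists_ge hc' ⟨x, hne.le⟩ ⟨x₁, hpos.le⟩
    beta_reduce at hy
    rcases hs1 y with ⟨a, -⟩ | ⟨a, -⟩ <;> rcases hs1 x₁ with ⟨b, -⟩ | ⟨b, -⟩ <;>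
      rw [a, b] at hy <;> norm_num at hy
  rcases hs1 x₁ with ⟨a, -⟩ | ⟨a, -⟩
  · have hall : ∀ x, N x = N' x := by
      intro x
      rcases hs1 x with ⟨b, h⟩ | ⟨b, h⟩
      · exact h
      · exfalso
        have := hconst x
        rw [a, b] at this
        norm_num at this
    rw [show N = N' from funext hall]
    exact hle
  · have hall : ∀ x, N x = - N' x := by
      intro x
      rcases hs1 x with ⟨b, h⟩ | ⟨b, h⟩
      · exfalso
        have := hconst x
        rw [a, b] at this
        norm_num at this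
      · exact h
    rw [show N = fun x => - N' x from funext hall, integral_neg, norm_neg]
    exact hle

end Vale.Agent.P224.TP
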