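import Vale.Agent.P224.TP.Defs

/-!
The change of variables in the tube coordinates of the cone over a hypersurface of the sphere.
-/

namespace Vale.Agent.P224.TP

open Set Filter Metric Module MeasureTheory Matrix Vale.Agent.P224 Vale.Agent.P224.TwoSide
open Vale.Agent.P224.FV
open scoped Topology RealInnerProductSpace ContDiff Manifold

set_option linter.unusedSectionVars false

section lin

variable {W : Type*} [NormedAddCommGroup W] [InnerProductSpace ℝ W] [FiniteDimensional ℝ W]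
  {ι : Type*} [Fintype ι] [DecidableEq ι]

/-- the square of the determinant of an endomorphism is the Gram determinant of the image of an
orthonormal basis -/
lemma det_sq_eq (e : OrthonormalBasis ι ℝ W) (A : W →L[ℝ] W) :
    A.det ^ 2 = (Matrix.gram ℝ fun i => A (e i)).det := by
  have h1 : A.det = (LinearMap.toMatrix e.toBasis e.toBasis (A : W →ₗ[ℝ] W)).det := by
    rw [ContinuousLinearMap.det, LinearMap.det_toMatrix]
  have h2 : (Matrix.gram ℝ fun i => A (e i)) =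
      (LinearMap.toMatrix e.toBasis e.toBasis (A : W →ₗ[ℝ] W))ᵀ *
        LinearMap.toMatrix e.toBasis e.toBasis (A : W →ₗ[ℝ] W) := by
    ext i j
    rw [Matrix.mul_apply, Matrix.gram_apply, ← e.sum_inner_mul_inner]
    refine Finset.sum_congr rfl fun k _ => ?_
    rw [Matrix.transpose_apply, LinearMap.toMatrix_apply, LinearMap.toMatrix_apply]
    simp only [OrthonormalBasis.coe_toBasis, OrthonormalBasis.coe_toBasis_repr_apply,
      OrthonormalBasis.repr_apply_apply, ContinuousLinearMap.coe_coe]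
    rw [real_inner_comm]
  rw [h2, Matrix.det_mul, Matrix.det_transpose, ← h1, sq]

/-- change of basis for Gram matrices -/
lemma gram_comb (q : ι → W) (T : Matrix ι ι ℝ) :
    Matrix.gram ℝ (fun t => ∑ s, T s t • q s) = Tᵀ * Matrix.gram ℝ q * T := by
  ext i j
  simp only [Matrix.gram_apply, sum_inner, inner_sum, real_inner_smul_left, real_inner_smul_right,
    Matrix.mul_apply, Matrix.transpose_apply, Finset.sum_mul]
  refine Finset.sum_congr rfl fun k _ => Finset.sum_congr rfl fun l _ => ?_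
  ring

/-- the Gram determinant of a frame of the cone with a transversal vector -/
lemma det_gram_cone {m : ℕ} (P : Fin m → W) {f n w : W} (r : ℝ) (hf : ‖f‖ = 1) (hn : ‖n‖ = 1)
    (hfn : ⟪f, n⟫ = 0) (hPf : ∀ i, ⟪P i, f⟫ = 0) (hPn : ∀ i, ⟪P i, n⟫ = 0) (α : Fin m → ℝ)
    (β γ : ℝ) (hw : w = ∑ i, α i • P i + β • f + γ • n) :
    (Matrix.gram ℝ (Sum.elim (Sum.elim (fun i => r • P i) (fun _ : Unit => f))
      (fun _ : Unit => w))).det = (r ^ m * γ) ^ 2 * (Matrix.gram ℝ P).det := by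
  set q : (Fin m ⊕ Unit) ⊕ Unit → W := Sum.elim (Sum.elim P (fun _ => f)) (fun _ => n) with hq
  set T : Matrix ((Fin m ⊕ Unit) ⊕ Unit) ((Fin m ⊕ Unit) ⊕ Unit) ℝ :=
    Matrix.fromBlocks (Matrix.fromBlocks (r • 1) 0 0 1)
      (Matrix.of fun s _ => Sum.elim α (fun _ => β) s) 0 (Matrix.of fun _ _ => γ) with hT
  have e1 : (Sum.elim (Sum.elim (fun i => r • P i) (fun _ : Unit => f)) (fun _ : Unit => w))
      = fun t => ∑ s, T s t • q s := by
    funext t
    rcases t with (t | t) | t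
    · simp [hT, hq, Fintype.sum_sum_type, Matrix.one_apply, ite_smul, Matrix.smul_apply]
    · simp [hT, hq, Fintype.sum_sum_type]
    · simp [hT, hq, Fintype.sum_sum_type, hw]
  have hnf : ⟪n, f⟫ = 0 := by rw [real_inner_comm]; exact hfn
  have hfP : ∀ i, ⟪f, P i⟫ = 0 := fun i => by rw [real_inner_comm]; exact hPf i
  have hnP : ∀ i, ⟪n, P i⟫ = 0 := fun i => by rw [real_inner_comm]; exact hPn i
  have e2 : Matrix.gram ℝ q = Matrix.fromBlocks (Matrix.fromBlocks (Matrix.gram ℝ P) 0 0 1) 0 0 1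
      := by
    ext s t
    rcases s with (s | s) | s <;> rcases t with (t | t) | t <;>
      simp [hq, Matrix.gram_apply, hf, hn, hfn, hnf, hPf, hPn, hfP, hnP]
  have e3 : T.det = r ^ m * γ := by
    rw [hT, Matrix.det_fromBlocks_zero₂₁, Matrix.det_fromBlocks_zero₂₁]
    simp only [Matrix.det_smul, Matrix.det_one, Fintype.card_fin, mul_one, Matrix.det_unique,
      Matrix.of_apply, Matrix.one_apply_eq]
  have e4 : (Matrix.gram ℝ q).det = (Matrix.gram ℝ P).det := by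
    rw [e2, Matrix.det_fromBlocks_zero₂₁, Matrix.det_fromBlocks_zero₂₁]
    simp only [Matrix.det_one, mul_one]
  rw [e1, gram_comb, Matrix.det_mul, Matrix.det_mul, Matrix.det_transpose, e3, e4]
  ring

end lin

section coord

variable {V W : Type*} [NormedAddCommGroup V] [InnerProductSpace ℝ V] [FiniteDimensional ℝ V]
  [NormedAddCommGroup W] [InnerProductSpace ℝ W] [FiniteDimensional ℝ W]
  [MeasurableSpace V] [BorelSpace V] [MeasurableSpace W] [BorelSpace W]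

/-- measure preserving linear coordinates adapted to an orthonormal basis -/
lemma exists_coord (hW : finrank ℝ W = finrank ℝ V + 2) :
    ∃ (Ψ : W ≃L[ℝ] (V × ℝ) × ℝ)
      (e : OrthonormalBasis ((Fin (finrank ℝ V) ⊕ Unit) ⊕ Unit) ℝ W),
      MeasurePreserving Ψ ∧
      (∀ i, Ψ (e (Sum.inl (Sum.inl i))) = ((stdOrthonormalBasis ℝ V i, 0), 0)) ∧
      (∀ i, Ψ (e (Sum.inl (Sum.inr i))) = ((0, 1), 0)) ∧
      (∀ i, Ψ (e (Sum.inr i)) = ((0, 0), 1)) := by
  set eE : OrthonormalBasis ((Fin (finrank ℝ V) ⊕ Unit) ⊕ Unit) ℝ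
      (WithLp 2 (WithLp 2 (V × ℝ) × ℝ)) :=
    ((stdOrthonormalBasis ℝ V).prod (OrthonormalBasis.singleton Unit ℝ)).prod
      (OrthonormalBasis.singleton Unit ℝ) with heE
  have hcard : Fintype.card ((Fin (finrank ℝ V) ⊕ Unit) ⊕ Unit)
      = Fintype.card (Fin (finrank ℝ W)) := by
    simp [hW]
  set Λ : WithLp 2 (WithLp 2 (V × ℝ) × ℝ) ≃ₗᵢ[ℝ] W :=
    eE.equiv (stdOrthonormalBasis ℝ W) (Fintype.equivOfCardEq hcard) with hΛ
  set Ψ : W ≃L[ℝ] (V × ℝ) × ℝ :=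
    Λ.symm.toContinuousLinearEquiv.trans
      ((WithLp.prodContinuousLinearEquiv 2 ℝ (WithLp 2 (V × ℝ)) ℝ).trans
        ((WithLp.prodContinuousLinearEquiv 2 ℝ V ℝ).prodCongr (ContinuousLinearEquiv.refl ℝ ℝ)))
      with hΨ
  refine ⟨Ψ, eE.map Λ, ?_, ?_, ?_, ?_⟩
  · have h1 := Λ.symm.measurePreserving
    have h2 := WithLp.volume_preserving_ofLp (WithLp 2 (V × ℝ)) ℝ
    have h3 := (WithLp.volume_preserving_ofLp V ℝ).prod (MeasurePreserving.id (volume : Measure ℝ))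
    exact h3.comp (h2.comp h1)
  · intro i
    simp [hΨ, heE]
  · intro i
    simp [hΨ, heE]
  · intro i
    simp [hΨ, heE]
    rfl

/-- decomposition of a vector in the frame of the cone and the normal -/
lemma frame_decomp (hW : finrank ℝ W = finrank ℝ V + 2) {f : V → W} {T : Set V} (h : ImmV f T)
    {u : V} (hu : u ∈ T) {n : W} (hn : ‖n‖ = 1) (hfn : ⟪f u, n⟫ = 0)
    (hPn : ∀ v, ⟪fderiv ℝ f u v, n⟫ = 0) (w : W) :
    w = ∑ i, lW f w i u • pd f i u + ⟪f u, w⟫ • f u + ⟪n, w⟫ • n := by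
  have hff : ⟪f u, f u⟫ = 1 := by rw [real_inner_self_eq_norm_sq, h.unit u hu]; norm_num
  have hnn : ⟪n, n⟫ = 1 := by rw [real_inner_self_eq_norm_sq, hn]; norm_num
  have hnf : ⟪n, f u⟫ = 0 := by rw [real_inner_comm]; exact hfn
  have hPf := inner_rep_F_fderiv h hu
  have hT : ∑ i, lW f w i u • pd f i u = lT f w u := rfl
  have hTv : ∀ z : W, (∀ v, ⟪fderiv ℝ f u v, z⟫ = 0) → ⟪z, lT f w u⟫ = 0 := by
    intro z hz
    rw [real_inner_comm, ← fderiv_vW]
    exact hz _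
  have key : w - lT f w u - ⟪f u, w⟫ • f u - ⟪n, w⟫ • n = 0 := by
    refine eq_zero_of_orth hW (fderiv ℝ f u).toLinearMap (h.inj u hu) (h.unit u hu) hn hfn
      hPf hPn ?_ ?_ ?_
    · intro v
      have h1 := inner_fderiv_sub_lT (h.inj u hu) w v
      have h2 := hPf v
      have h3 := hPn v
      change ⟪fderiv ℝ f u v, w - lT f w u - ⟪f u, w⟫ • f u - ⟪n, w⟫ • n⟫ = 0
      rw [inner_sub_right, inner_sub_right, h1, real_inner_smul_right, real_inner_smul_right, h2,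
        h3]
      ring
    · rw [inner_sub_right, inner_sub_right, inner_sub_right, hTv _ hPf, real_inner_smul_right,
        real_inner_smul_right, hff, hfn]
      ring
    · rw [inner_sub_right, inner_sub_right, inner_sub_right, hTv _ hPn, real_inner_smul_right,
        real_inner_smul_right, hnf, hnn]
      ring
  rw [sub_sub, sub_sub, sub_eq_zero] at key
  rw [hT, add_assoc]
  exact key

/-- the derivative of the tube coordinates -/
lemma hasFDerivAt_tube {f : V → W} {T : Set V} (h : ImmV f T) (w : W) {q : (V × ℝ) × ℝ}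
    (hq : q.1.1 ∈ T) :
    HasFDerivAt (fun q : (V × ℝ) × ℝ => q.1.2 • f q.1.1 + q.2 • w)
      (q.1.2 • ((fderiv ℝ f q.1.1).comp
          ((ContinuousLinearMap.fst ℝ V ℝ).comp (ContinuousLinearMap.fst ℝ (V × ℝ) ℝ)))
        + ((ContinuousLinearMap.snd ℝ V ℝ).comp
          (ContinuousLinearMap.fst ℝ (V × ℝ) ℝ)).smulRight (f q.1.1)
        + (ContinuousLinearMap.snd ℝ (V × ℝ) ℝ).smulRight w) q := by
  have hd : HasFDerivAt f (fderiv ℝ f q.1.1) q.1.1 :=
    ((h.smooth.contDiffAt (h.isOpen.mem_nhds hq)).differentiableAt (by norm_num)).hasFDerivAt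
  have h11 : HasFDerivAt (fun q : (V × ℝ) × ℝ => q.1.1)
      ((ContinuousLinearMap.fst ℝ V ℝ).comp (ContinuousLinearMap.fst ℝ (V × ℝ) ℝ)) q :=
    ((ContinuousLinearMap.fst ℝ V ℝ).comp (ContinuousLinearMap.fst ℝ (V × ℝ) ℝ)).hasFDerivAt
  have h12 : HasFDerivAt (fun q : (V × ℝ) × ℝ => q.1.2)
      ((ContinuousLinearMap.snd ℝ V ℝ).comp (ContinuousLinearMap.fst ℝ (V × ℝ) ℝ)) q :=
    ((ContinuousLinearMap.snd ℝ V ℝ).comp (ContinuousLinearMap.fst ℝ (V × ℝ) ℝ)).hasFDerivAt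
  have h2 : HasFDerivAt (fun q : (V × ℝ) × ℝ => q.2) (ContinuousLinearMap.snd ℝ (V × ℝ) ℝ) q :=
    (ContinuousLinearMap.snd ℝ (V × ℝ) ℝ).hasFDerivAt
  have h3 : HasFDerivAt (fun q : (V × ℝ) × ℝ => f q.1.1) ((fderiv ℝ f q.1.1).comp
      ((ContinuousLinearMap.fst ℝ V ℝ).comp (ContinuousLinearMap.fst ℝ (V × ℝ) ℝ))) q :=
    hd.comp q h11
  exact (h12.smul h3).add (h2.smul_const w)

end coord

section main

variable {V W M : Type*} [NormedAddCommGroup V] [InnerProductSpace ℝ V] [FiniteDimensional ℝ V]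
  [NormedAddCommGroup W] [InnerProductSpace ℝ W] [FiniteDimensional ℝ W]
  [TopologicalSpace M] [ChartedSpace V M]
  [MeasurableSpace V] [BorelSpace V] [MeasurableSpace W] [BorelSpace W]
  [MeasurableSpace M] [BorelSpace M]

/-- change of variables in the tube coordinates -/
theorem chart_image [IsManifold 𝓘(ℝ, V) ∞ M] (hW : finrank ℝ W = finrank ℝ V + 2)
    {F N : M → W} (hF : SphImm V F) (hN : ∀ x, IsUnitNormal V F x (N x)) (x₀ : M) (w : W)
    {B : Set (V × ℝ)} {J : Set ℝ} (hB : IsOpen B) (hJ : IsOpen J)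
    (hBt : ∀ q ∈ B, q.1 ∈ (chartAt V x₀).target ∧ 0 < q.2)
    (hi : InjOn (fun q : (V × ℝ) × ℝ => q.1.2 • rep F x₀ q.1.1 + q.2 • w) (B ×ˢ J))
    (g : W → ℝ) :
    ∫ y in (fun q : (V × ℝ) × ℝ => q.1.2 • rep F x₀ q.1.1 + q.2 • w) '' (B ×ˢ J), g y
      = ∫ q in B ×ˢ J, g (q.1.2 • rep F x₀ q.1.1 + q.2 • w) *
        (q.1.2 ^ finrank ℝ V * Real.sqrt (metricMat (rep F x₀) q.1.1).det *
          |⟪N ((chartAt V x₀).symm q.1.1), w⟫|) := by
  obtain ⟨Ψ, e, hΨ, e1, e2, e3⟩ := exists_coord (V := V) (W := W) hW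
  have hI := immV_rep hF x₀
  set f : V → W := rep F x₀ with hf
  set Θ : (V × ℝ) × ℝ → W := fun q => q.1.2 • f q.1.1 + q.2 • w with hΘ
  set Θ' : (V × ℝ) × ℝ → ((V × ℝ) × ℝ →L[ℝ] W) := fun q =>
    q.1.2 • ((fderiv ℝ f q.1.1).comp
          ((ContinuousLinearMap.fst ℝ V ℝ).comp (ContinuousLinearMap.fst ℝ (V × ℝ) ℝ)))
        + ((ContinuousLinearMap.snd ℝ V ℝ).comp
          (ContinuousLinearMap.fst ℝ (V × ℝ) ℝ)).smulRight (f q.1.1)
        + (ContinuousLinearMap.snd ℝ (V × ℝ) ℝ).smulRight w with hΘ'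
  set S : Set ((V × ℝ) × ℝ) := B ×ˢ J with hS
  have hSo : IsOpen S := hB.prod hJ
  have hso : IsOpen (Ψ ⁻¹' S) := hSo.preimage Ψ.continuous
  have himg : Θ '' S = (Θ ∘ Ψ) '' (Ψ ⁻¹' S) := by
    rw [image_comp, image_preimage_eq _ Ψ.surjective]
  have hder : ∀ y ∈ Ψ ⁻¹' S, HasFDerivWithinAt (Θ ∘ Ψ)
      ((Θ' (Ψ y)).comp (Ψ : W →L[ℝ] (V × ℝ) × ℝ)) (Ψ ⁻¹' S) y := by
    intro y hy
    have h1 : HasFDerivAt Θ (Θ' (Ψ y)) (Ψ y) :=
      hasFDerivAt_tube hI w (hBt _ (mem_prod.1 hy).1).1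
    exact (h1.comp y Ψ.hasFDerivAt).hasFDerivWithinAt
  have hinj : InjOn (Θ ∘ Ψ) (Ψ ⁻¹' S) := by
    intro y hy z hz hyz
    exact Ψ.injective (hi hy hz hyz)
  rw [himg, integral_image_eq_integral_abs_det_fderiv_smul volume hso.measurableSet hder hinj g]
  have hemb : MeasurableEmbedding Ψ := Ψ.toHomeomorph.measurableEmbedding
  have h4 : ∫ y in Ψ ⁻¹' S, |((Θ' (Ψ y)).comp (Ψ : W →L[ℝ] (V × ℝ) × ℝ)).det| • g ((Θ ∘ Ψ) y)
      = ∫ q in S, |((Θ' q).comp (Ψ : W →L[ℝ] (V × ℝ) × ℝ)).det| • g (Θ q) :=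
    hΨ.setIntegral_preimage_emb hemb
      (fun q => |((Θ' q).comp (Ψ : W →L[ℝ] (V × ℝ) × ℝ)).det| • g (Θ q)) S
  rw [h4]
  refine setIntegral_congr_fun hSo.measurableSet fun q hq => ?_
  obtain ⟨hqT, hq0⟩ := hBt _ (mem_prod.1 hq).1
  have hn1 : ‖N ((chartAt V x₀).symm q.1.1)‖ = 1 := (hN _).1
  have hn2 : ⟪f q.1.1, N ((chartAt V x₀).symm q.1.1)⟫ = 0 := (hN _).2.1
  have hn3 : ∀ v, ⟪fderiv ℝ f q.1.1 v, N ((chartAt V x₀).symm q.1.1)⟫ = 0 := fun v =>
    normal_rep hF hN x₀ hqT v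
  have hdec := frame_decomp hW hI hqT hn1 hn2 hn3 w
  have hG := det_gram_cone (fun i => pd f i q.1.1) q.1.2 (hI.unit _ hqT) hn1 hn2
    (fun i => inner_rep_F_fderiv hI hqT _) (fun i => hn3 _) _ _ _ hdec
  have hdet := det_sq_eq e ((Θ' q).comp (Ψ : W →L[ℝ] (V × ℝ) × ℝ))
  have hvec : (fun i => ((Θ' q).comp (Ψ : W →L[ℝ] (V × ℝ) × ℝ)) (e i))
      = Sum.elim (Sum.elim (fun i => q.1.2 • pd f i q.1.1) (fun _ : Unit => f q.1.1))
        (fun _ : Unit => w) := by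
    funext i
    rcases i with (i | i) | i
    · simp [hΘ', e1, pd]
    · simp [hΘ', e2]
    · simp [hΘ', e3]
  rw [hvec, hG] at hdet
  have hmm : (Matrix.gram ℝ fun i => pd f i q.1.1) = metricMat f q.1.1 := rfl
  rw [hmm] at hdet
  have hpos : 0 ≤ (metricMat f q.1.1).det := (lG_det_pos (hI.inj _ hqT)).le
  have habs : |((Θ' q).comp (Ψ : W →L[ℝ] (V × ℝ) × ℝ)).det|
      = q.1.2 ^ finrank ℝ V * Real.sqrt (metricMat f q.1.1).det *
          |⟪N ((chartAt V x₀).symm q.1.1), w⟫| := by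
    rw [← Real.sqrt_sq_eq_abs, hdet, Real.sqrt_mul (sq_nonneg _), Real.sqrt_sq_eq_abs, abs_mul,
      abs_of_pos (pow_pos hq0 _)]
    ring
  simp only [smul_eq_mul]
  rw [habs]
  ring

end main

end Vale.Agent.P224.TP
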