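import Vale.Agent.P224.TP.Defs

/-!
Coordinates near a point of the cone, affine in the last variable with a fixed direction.
-/

namespace Vale.Agent.P224.TP

open Set Filter Metric Module MeasureTheory Vale.Agent.P224 Vale.Agent.P224.TwoSide
open scoped Topology RealInnerProductSpace ContDiff Manifold

set_option linter.unusedSectionVars false

variable {V W M : Type*} [NormedAddCommGroup V] [InnerProductSpace ℝ V] [FiniteDimensional ℝ V]
  [NormedAddCommGroup W] [InnerProductSpace ℝ W] [FiniteDimensional ℝ W]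
  [TopologicalSpace M] [ChartedSpace V M]

/-- the parametrisation -/
noncomputable def par (f : V → W) (w : W) (q : (V × ℝ) × ℝ) : W := q.1.2 • f q.1.1 + q.2 • w

/-- its differential -/
noncomputable def parL (f : V → W) (w : W) (q : (V × ℝ) × ℝ) : (V × ℝ) × ℝ →L[ℝ] W :=
  ((q.1.2 • (fderiv ℝ f q.1.1).comp ((ContinuousLinearMap.fst ℝ V ℝ).comp
        (ContinuousLinearMap.fst ℝ (V × ℝ) ℝ))
      + ((ContinuousLinearMap.snd ℝ V ℝ).comp
          (ContinuousLinearMap.fst ℝ (V × ℝ) ℝ)).smulRight (f q.1.1)))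
      + (ContinuousLinearMap.snd ℝ (V × ℝ) ℝ).smulRight w

lemma parL_apply (f : V → W) (w : W) (q : (V × ℝ) × ℝ) (h : (V × ℝ) × ℝ) :
    parL f w q h = q.1.2 • fderiv ℝ f q.1.1 h.1.1 + h.1.2 • f q.1.1 + h.2 • w := rfl

lemma hasFDerivAt_par {f : V → W} {w : W} {q : (V × ℝ) × ℝ} (hf : DifferentiableAt ℝ f q.1.1) :
    HasFDerivAt (par f w) (parL f w q) q := by
  have hfd := hf.hasFDerivAt
  have h1 : HasFDerivAt (fun q : (V × ℝ) × ℝ => q.1.2)
      ((ContinuousLinearMap.snd ℝ V ℝ).comp (ContinuousLinearMap.fst ℝ (V × ℝ) ℝ)) q :=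
    ((ContinuousLinearMap.snd ℝ V ℝ).comp (ContinuousLinearMap.fst ℝ (V × ℝ) ℝ)).hasFDerivAt
  have h2 : HasFDerivAt (fun q : (V × ℝ) × ℝ => q.2)
      (ContinuousLinearMap.snd ℝ (V × ℝ) ℝ) q := (ContinuousLinearMap.snd ℝ (V × ℝ) ℝ).hasFDerivAt
  have h3 : HasFDerivAt (fun q : (V × ℝ) × ℝ => f q.1.1)
      ((fderiv ℝ f q.1.1).comp ((ContinuousLinearMap.fst ℝ V ℝ).comp
        (ContinuousLinearMap.fst ℝ (V × ℝ) ℝ))) q :=
    HasFDerivAt.comp q (g := f) (f := fun q : (V × ℝ) × ℝ => q.1.1) hfd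
      ((ContinuousLinearMap.fst ℝ V ℝ).comp (ContinuousLinearMap.fst ℝ (V × ℝ) ℝ)).hasFDerivAt
  exact (h1.fun_smul h3).add (h2.smul_const w)

lemma contDiffAt_par {f : V → W} {w : W} {q : (V × ℝ) × ℝ} (hf : ContDiffAt ℝ 1 f q.1.1) :
    ContDiffAt ℝ 1 (par f w) q := by
  have h3 : ContDiffAt ℝ 1 (fun q : (V × ℝ) × ℝ => f q.1.1) q :=
    ContDiffAt.comp q (g := f) (f := fun q : (V × ℝ) × ℝ => q.1.1) hf contDiffAt_fst.fst
  exact ((contDiffAt_fst.snd).smul h3).add (contDiffAt_snd.smul contDiffAt_const)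

/-- the differential is injective -/
lemma parL_injective [IsManifold 𝓘(ℝ, V) ∞ M] {F : M → W} (hF : SphImm V F) {x₀ : M} {v : V}
    (hv : v ∈ (chartAt V x₀).target) {n w : W}
    (hn : IsUnitNormal V F ((chartAt V x₀).symm v) n)
    (hn3 : ∀ h, ⟪fderiv ℝ (rep F x₀) v h, n⟫ = 0)
    (hw : ⟪n, w⟫ ≠ 0) {r τ : ℝ} (hr : 0 < r) :
    Function.Injective (parL (rep F x₀) w ((v, r), τ)) := by
  have hI := immV_rep hF x₀
  rw [injective_iff_map_eq_zero]
  rintro ⟨⟨h, α⟩, β⟩ h0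
  rw [parL_apply] at h0
  simp only at h0
  have hfn : ⟪rep F x₀ v, n⟫ = 0 := hn.2.1
  have hL2 : ∀ h, ⟪fderiv ℝ (rep F x₀) v h, rep F x₀ v⟫ = 0 := fun h =>
    FV.inner_rep_F_fderiv hI hv h
  have hff : ⟪rep F x₀ v, rep F x₀ v⟫ = 1 := by
    rw [real_inner_self_eq_norm_sq, hI.unit v hv]; norm_num
  have e1 := congrArg (fun z => ⟪z, n⟫) h0
  simp only [inner_add_left, real_inner_smul_left, hn3, hfn, inner_zero_left, mul_zero,
    zero_add] at e1
  have hβ : β = 0 := by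
    rcases mul_eq_zero.mp e1 with h | h
    · exact h
    · exact absurd (by rw [real_inner_comm]; exact h) hw
  rw [hβ, zero_smul, add_zero] at h0
  have e2 := congrArg (fun z => ⟪z, rep F x₀ v⟫) h0
  simp only [inner_add_left, real_inner_smul_left, hL2, hff, inner_zero_left, mul_zero, mul_one,
    zero_add] at e2
  rw [e2, zero_smul, add_zero] at h0
  have h1 := (smul_eq_zero.mp h0).resolve_left hr.ne'
  have hv : h = 0 := hI.inj _ hv (by rw [map_zero]; exact h1)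
  rw [hv, e2, hβ]
  rfl

end Vale.Agent.P224.TP
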