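import Vale.Agent.P224.TP.Coord

/-!
Existence of the coordinates near a point of the cone.
-/

namespace Vale.Agent.P224.TP

open Set Filter Metric Module MeasureTheory Vale.Agent.P224 Vale.Agent.P224.TwoSide
open scoped Topology RealInnerProductSpace ContDiff Manifold

set_option linter.unusedSectionVars false

section

variable {E : Type*} [NormedAddCommGroup E] [NormedSpace ℝ E]

lemma const_on {c : E → ℝ} {S : Set E} (hS : IsPreconnected S)
    (h : ∀ y ∈ S, ∀ᶠ z in 𝓝 y, c z = c y) {y z : E} (hy : y ∈ S) (hz : z ∈ S) : c z = c y := by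
  set U : Set E := {x | ∀ᶠ x' in 𝓝 x, c x' = c y} with hU
  set U' : Set E := {x | ∀ᶠ x' in 𝓝 x, c x' ≠ c y} with hU'
  have hUo : IsOpen U := isOpen_setOfPred_eventually_nhds
  have hU'o : IsOpen U' := isOpen_setOfPred_eventually_nhds
  have hcov : S ⊆ U ∪ U' := by
    intro x hx
    by_cases h0 : c x = c y
    · left
      change ∀ᶠ x' in 𝓝 x, c x' = c y
      filter_upwards [h x hx] with x' hx'
      rw [hx', h0]
    · right
      change ∀ᶠ x' in 𝓝 x, c x' ≠ c y
      filter_upwards [h x hx] with x' hx'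
      rw [hx']; exact h0
  have hdisj : S ∩ (U ∩ U') = ∅ := by
    rw [eq_empty_iff_forall_notMem]
    rintro x ⟨-, h1, h2⟩
    have h1' : ∀ᶠ x' in 𝓝 x, c x' = c y := h1
    have h2' : ∀ᶠ x' in 𝓝 x, c x' ≠ c y := h2
    exact h2'.self_of_nhds h1'.self_of_nhds
  rcases (isPreconnected_iff_subset_of_disjoint.mp hS) U U' hUo hU'o hcov hdisj with h1 | h1
  · have : ∀ᶠ x' in 𝓝 z, c x' = c y := h1 hz
    exact this.self_of_nhds
  · have : ∀ᶠ x' in 𝓝 y, c x' ≠ c y := h1 hy
    exact absurd rfl this.self_of_nhds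

/-- a colouring is locally constant off the hypersurface -/
lemma isCol_locConst {C O : Set E} {c : E → ℝ} (hc : IsCol C O c) {y : E} (hy : y ∈ O)
    (hyC : y ∉ C) : ∀ᶠ z in 𝓝 y, c z = c y := by
  obtain ⟨g, hg, hcg⟩ := hc y hy
  have h0 : g y ≠ 0 := fun h => hyC (hg.zero.self_of_nhds.mp h)
  have hcy := hcg.self_of_nhds
  rcases lt_or_gt_of_ne h0 with h | h
  · filter_upwards [hcg, hg.smooth.continuousAt.eventually (gt_mem_nhds h)] with z a b
    rw [a, hcy, Real.sign_of_neg b, Real.sign_of_neg h]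
  · filter_upwards [hcg, hg.smooth.continuousAt.eventually (lt_mem_nhds h)] with z a b
    rw [a, hcy, Real.sign_of_pos b, Real.sign_of_pos h]

lemma isCol_zero_iff {C O : Set E} {c : E → ℝ} (hc : IsCol C O c) {y : E} (hy : y ∈ O) :
    c y = 0 ↔ y ∈ C := by
  obtain ⟨g, hg, hcg⟩ := hc y hy
  rw [hcg.self_of_nhds, Real.sign_eq_zero_iff]
  exact hg.zero.self_of_nhds

end

variable {V W M : Type*} [NormedAddCommGroup V] [InnerProductSpace ℝ V] [FiniteDimensional ℝ V]
  [NormedAddCommGroup W] [InnerProductSpace ℝ W] [FiniteDimensional ℝ W]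
  [TopologicalSpace M] [ChartedSpace V M]

lemma smul_mem_cone_iff {F : M → W} {y : W} {r : ℝ} (hr : 0 < r) :
    r • y ∈ cone F ↔ y ∈ cone F := by
  constructor
  · rintro ⟨s, hs, x, hx⟩
    refine ⟨r⁻¹ * s, by positivity, x, ?_⟩
    rw [mul_smul, ← hx, smul_smul, inv_mul_cancel₀ hr.ne', one_smul]
  · rintro ⟨s, hs, x, hx⟩
    exact ⟨r * s, by positivity, x, by rw [hx, smul_smul]⟩

/-- the colouring is constant on rays -/
lemma col_ray {F : M → W} {c : W → ℝ} (hc : IsCol (cone F) {y : W | y ≠ 0} c) {y : W}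
    (hy : y ≠ 0) (hyC : y ∉ cone F) {r : ℝ} (hr : 0 < r) : c (r • y) = c y := by
  have hS : IsPreconnected ((fun s : ℝ => s • y) '' Ioi 0) :=
    isPreconnected_Ioi.image _ (by fun_prop)
  have h1 := const_on (c := c) hS (y := y) (z := r • y) ?_
    ⟨1, mem_Ioi.mpr one_pos, one_smul _ _⟩ ⟨r, hr, rfl⟩
  · exact h1
  · rintro _ ⟨s, hs, rfl⟩
    have hs0 : (0 : ℝ) < s := hs
    refine isCol_locConst hc ?_ ?_
    · exact smul_ne_zero hs0.ne' hy
    · rw [smul_mem_cone_iff hs0]; exact hyC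

/-- the coordinates near a point of the cone -/
structure Coords (F N : M → W) (c : W → ℝ) (x₀ : M) (r₀ : ℝ) (w : W)
    (e : OpenPartialHomeomorph ((V × ℝ) × ℝ) W) (B : Set (V × ℝ)) (ε : ℝ) : Prop where
  epos : 0 < ε
  isOpen : IsOpen B
  source : e.source = B ×ˢ Ioo (-ε) ε
  coe : ∀ q, e q = par (rep F x₀) w q
  mem : r₀ • F x₀ ∈ e.target
  tgt : ∀ q ∈ B, q.1 ∈ (chartAt V x₀).target
  rpos : ∀ q ∈ B, 0 < q.2
  npos : ∀ q ∈ B, 0 < ⟪N ((chartAt V x₀).symm q.1), w⟫
  col : ∀ q ∈ e.source, c (e q) = Real.sign q.2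
  back : ∀ (x : M) (r : ℝ), 0 < r → r • F x ∈ e.target →
    x ∈ (chartAt V x₀).source ∧ (chartAt V x₀ x, r) ∈ B

theorem exists_coords [IsManifold 𝓘(ℝ, V) ∞ M] [CompactSpace M]
    (hW : finrank ℝ W = finrank ℝ V + 2) {F N : M → W} (hF : SphImm V F)
    (hinj : Function.Injective F) {c : W → ℝ} (hcol : IsCol (cone F) {y : W | y ≠ 0} c)
    (hNc : Continuous N) (hN : ∀ x, IsUnitNormal V F x (N x))
    (hside : ∀ x, ∀ᶠ s in 𝓝[>] (0 : ℝ), c (F x + s • N x) = 1) (x₀ : M) {r₀ : ℝ} (hr₀ : 0 < r₀)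
    {w : W} (hw : 0 < ⟪N x₀, w⟫) :
    ∃ (e : OpenPartialHomeomorph ((V × ℝ) × ℝ) W) (B : Set (V × ℝ)) (ε : ℝ),
      Coords F N c x₀ r₀ w e B ε := by
  have hI := immV_rep hF x₀
  set φ := chartAt V x₀ with hφ
  have hxs : x₀ ∈ φ.source := mem_chart_source _ x₀
  have hxT : φ x₀ ∈ φ.target := φ.map_source hxs
  have hsx : φ.symm (φ x₀) = x₀ := φ.left_inv hxs
  set f : V → W := rep F x₀ with hf
  have hfx : f (φ x₀) = F x₀ := by
    rw [hf]; unfold rep; rw [φ.left_inv hxs]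
  have hn3 : ∀ h, ⟪fderiv ℝ (rep F x₀) (φ x₀) h, N x₀⟫ = 0 := by
    intro h
    have := FV.normal_rep hF hN x₀ hxT h
    unfold rep at this
    rw [φ.left_inv hxs] at this
    exact this
  set q₀ : (V × ℝ) × ℝ := ((φ x₀, r₀), 0) with hq₀
  set Θ : (V × ℝ) × ℝ → W := par f w with hΘ
  set L : (V × ℝ) × ℝ →L[ℝ] W := parL f w q₀ with hL
  have hfs : ContDiffAt ℝ 1 f (φ x₀) :=
    (hI.smooth.contDiffAt (hI.isOpen.mem_nhds hxT)).of_le (by exact_mod_cast le_top)
  have hder : HasFDerivAt Θ L q₀ := hasFDerivAt_par (hfs.differentiableAt (by norm_num))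
  have hLinj : Function.Injective L := by
    refine parL_injective hF hxT (n := N x₀) ?_ hn3 hw.ne' hr₀
    rw [hsx]; exact hN x₀
  have hdim : finrank ℝ ((V × ℝ) × ℝ) = finrank ℝ W := by
    simp only [finrank_prod, finrank_self]
    omega
  set L' : ((V × ℝ) × ℝ) ≃L[ℝ] W :=
    (LinearMap.linearEquivOfInjective L.toLinearMap hLinj hdim).toContinuousLinearEquiv with hL'
  have hL'L : (L' : (V × ℝ) × ℝ →L[ℝ] W) = L := by
    apply ContinuousLinearMap.ext
    intro q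
    rfl
  have hder' : HasFDerivAt Θ (L' : (V × ℝ) × ℝ →L[ℝ] W) q₀ := by rw [hL'L]; exact hder
  have hΘs : ContDiffAt ℝ 1 Θ q₀ := contDiffAt_par hfs
  set e := hΘs.toOpenPartialHomeomorph Θ hder' (by norm_num) with he
  have hes : q₀ ∈ e.source := hΘs.mem_toOpenPartialHomeomorph_source hder' (by norm_num)
  have hecoe : (e : (V × ℝ) × ℝ → W) = Θ := hΘs.toOpenPartialHomeomorph_coe hder' (by norm_num)
  have hinv : ContDiffAt ℝ 1 e.symm (Θ q₀) := by
    have := hΘs.to_localInverse hder' (by norm_num)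
    exact this
  have hΘ0 : Θ q₀ = r₀ • F x₀ := by
    simp only [hΘ, par, hq₀, zero_smul, add_zero, hfx]
  set y₀ : W := r₀ • F x₀ with hy₀
  have hy0 : y₀ ≠ 0 := by
    intro h
    have := congrArg norm h
    rw [hy₀, norm_smul, hF.unit, mul_one, norm_zero, norm_eq_zero] at this
    exact hr₀.ne' this
  have hey : e q₀ = y₀ := by rw [hecoe, hΘ0]
  have hyt : y₀ ∈ e.target := by rw [← hey]; exact e.map_source hes
  have hsy : e.symm y₀ = q₀ := by rw [← hey, e.left_inv hes]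
  have hsc : ContinuousAt e.symm y₀ := e.continuousAt_symm hyt
  set g : W → ℝ := fun z => (e.symm z).2 with hg
  -- the cone is the zero set
  have hA : ∀ᶠ z in 𝓝 y₀, (g z = 0 ↔ z ∈ cone F) := by
    have a1 : ∀ᶠ z in 𝓝 y₀, z ∈ e.target := e.open_target.mem_nhds hyt
    have a3 : ∀ᶠ z in 𝓝 y₀, 0 < (e.symm z).1.2 := by
      have : ContinuousAt (fun z => (e.symm z).1.2) y₀ := hsc.fst.snd
      apply this.eventually (lt_mem_nhds _)
      change 0 < (e.symm y₀).1.2
      rw [hsy]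
      exact hr₀
    have b1 : ∀ᶠ q : M × ℝ in 𝓝 (x₀, r₀), q.1 ∈ φ.source ∧ ((φ q.1, q.2), (0 : ℝ)) ∈ e.source := by
      have c1 : ∀ᶠ q : M × ℝ in 𝓝 (x₀, r₀), q.1 ∈ φ.source :=
        continuousAt_fst.eventually_mem (φ.open_source.mem_nhds hxs)
      have c2 : ContinuousAt (fun q : M × ℝ => ((φ q.1, q.2), (0 : ℝ))) (x₀, r₀) := by
        have : ContinuousAt (fun q : M × ℝ => φ q.1) (x₀, r₀) :=
          ContinuousAt.comp (f := fun q : M × ℝ => q.1) (φ.continuousAt hxs) continuousAt_fst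
        exact (this.prodMk continuousAt_snd).prodMk continuousAt_const
      exact c1.and (c2.eventually_mem (e.open_source.mem_nhds hes))
    rw [nhds_prod_eq] at b1
    obtain ⟨U, hU, R, hR, hUR⟩ := eventually_prod_iff.mp b1
    have hemb : Topology.IsClosedEmbedding F := hF.smooth.continuous.isClosedEmbedding hinj
    have hU' : U ∈ comap F (𝓝 (F x₀)) := by
      rw [← hemb.isInducing.nhds_eq_comap]; exact hU
    obtain ⟨A, hA, hAU⟩ := hU'
    have hny : ‖y₀‖ = r₀ := by rw [hy₀, norm_smul, hF.unit, mul_one, Real.norm_of_nonneg hr₀.le]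
    have a4 : ∀ᶠ z in 𝓝 y₀, ‖z‖⁻¹ • z ∈ A := by
      apply (continuousAt_normalize hy0).eventually_mem
      rw [hny, hy₀, smul_smul, inv_mul_cancel₀ hr₀.ne', one_smul]
      exact hA
    have a5 : ∀ᶠ z in 𝓝 y₀, R ‖z‖ := by
      have : ContinuousAt (fun z : W => ‖z‖) y₀ := continuousAt_id.norm
      apply this.eventually
      change ∀ᶠ y in 𝓝 ‖y₀‖, R y
      rw [hny]
      exact hR
    filter_upwards [a1, a3, a4, a5] with z h1 h3 h4 h5
    constructor
    · intro h0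
      have h6 : e (e.symm z) = z := e.right_inv h1
      rw [hecoe] at h6
      have h0' : (e.symm z).2 = 0 := h0
      simp only [hΘ, par] at h6
      rw [h0', zero_smul, add_zero] at h6
      exact ⟨_, h3, φ.symm (e.symm z).1.1, h6.symm⟩
    · intro hz
      obtain ⟨x, hx1, hx2⟩ := normalize_mem hF.unit hz
      have hxU : U x := hAU (by
        change F x ∈ A
        rw [← hx1]; exact h4)
      obtain ⟨h6, h7⟩ := hUR hxU h5
      have h8 : e ((φ x, ‖z‖), 0) = z := by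
        rw [hecoe]
        simp only [hΘ, par, zero_smul, add_zero]
        conv_rhs => rw [hx2]
        congr 1
        rw [hf]; unfold rep; rw [φ.left_inv h6]
      change (e.symm z).2 = 0
      rw [← h8, e.left_inv h7]
  -- derivative in the direction of the normal
  have hdsy : HasFDerivAt e.symm (L'.symm : W →L[ℝ] (V × ℝ) × ℝ) y₀ := by
    refine e.hasFDerivAt_symm hyt ?_
    rw [hsy, hecoe]
    exact hder'
  have hgd : HasFDerivAt g ((ContinuousLinearMap.snd ℝ (V × ℝ) ℝ).comp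
      (L'.symm : W →L[ℝ] (V × ℝ) × ℝ)) y₀ := hdsy.snd
  have hgpos : 0 < (fderiv ℝ g y₀) (N x₀) := by
    rw [hgd.fderiv]
    set q := L'.symm (N x₀) with hq
    have hLq : L q = N x₀ := by
      have : L' q = N x₀ := L'.apply_symm_apply _
      rw [← hL'L]; exact this
    have h1 := congrArg (fun z => ⟪z, N x₀⟫) hLq
    simp only [hL, parL_apply, inner_add_left, real_inner_smul_left] at h1
    have h2 : ⟪f (φ x₀), N x₀⟫ = 0 := by rw [hfx]; exact (hN x₀).2.1
    have h3 : ⟪N x₀, N x₀⟫ = 1 := by rw [real_inner_self_eq_norm_sq, (hN x₀).1]; norm_num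
    have h4 : ⟪fderiv ℝ f q₀.1.1 q.1.1, N x₀⟫ = 0 := hn3 _
    rw [h4] at h1
    have h2' : ⟪f q₀.1.1, N x₀⟫ = 0 := h2
    rw [h2', h3, mul_zero, mul_zero, zero_add, zero_add, real_inner_comm] at h1
    change 0 < q.2
    by_contra hneg
    push Not at hneg
    have : q.2 * ⟪N x₀, w⟫ ≤ 0 := mul_nonpos_of_nonpos_of_nonneg hneg hw.le
    linarith
  have hgood : GoodAt (cone F) g y₀ := by
    refine ⟨?_, hA, ?_⟩
    · rw [← hΘ0]
      exact hinv.snd
    · intro _ h0
      rw [h0] at hgpos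
      simp at hgpos
  -- the colouring
  have hD : ∀ᶠ z in 𝓝 y₀, c z = Real.sign (g z) := by
    obtain ⟨g₀, hg₀, hcg₀⟩ := hcol y₀ hy0
    rcases sign_cases hg₀ hgood with h | h
    · filter_upwards [hcg₀, h] with z a b
      rw [a, b]
    · exfalso
      obtain ⟨k, hk, δ, hδ, hgr⟩ := growth hgood.smooth hgpos
      have hg0 : g y₀ = 0 := by
        change (e.symm y₀).2 = 0
        rw [hsy]
      have hcur : ContinuousAt (fun s : ℝ => y₀ + s • N x₀) 0 := by fun_prop
      have e0 : y₀ + (0 : ℝ) • N x₀ = y₀ := by simp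
      have h1 : ∀ᶠ s in 𝓝 (0 : ℝ), y₀ + s • N x₀ ∈ ball y₀ δ := by
        apply hcur.eventually_mem
        rw [e0]
        exact ball_mem_nhds _ hδ
      have h2 : ∀ᶠ s in 𝓝 (0 : ℝ), c (y₀ + s • N x₀) = - Real.sign (g (y₀ + s • N x₀)) := by
        have h3 : ∀ᶠ z in 𝓝 y₀, c z = - Real.sign (g z) := by
          filter_upwards [hcg₀, h] with z a b
          rw [a, b]
        refine hcur.eventually (p := fun z => c z = - Real.sign (g z)) ?_
        change ∀ᶠ z in 𝓝 (y₀ + (0 : ℝ) • N x₀), c z = - Real.sign (g z)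
        rw [e0]
        exact h3
      have h3 : ∀ᶠ s in 𝓝[>] (0 : ℝ), c (F x₀ + (r₀⁻¹ * s) • N x₀) = 1 := by
        have ht : Tendsto (fun s : ℝ => r₀⁻¹ * s) (𝓝[>] 0) (𝓝[>] 0) := by
          refine tendsto_nhdsWithin_iff.mpr ⟨?_, ?_⟩
          · have : Tendsto (fun s : ℝ => r₀⁻¹ * s) (𝓝 0) (𝓝 (r₀⁻¹ * 0)) :=
              (continuous_const.mul continuous_id).tendsto 0
            rw [mul_zero] at this
            exact this.mono_left nhdsWithin_le_nhds
          · filter_upwards [self_mem_nhdsWithin] with s hs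
            have hs0 : (0 : ℝ) < s := hs
            exact mul_pos (inv_pos.mpr hr₀) hs0
        exact ht.eventually (hside x₀)
      have h1' : ∀ᶠ s in 𝓝[>] (0 : ℝ), y₀ + s • N x₀ ∈ ball y₀ δ := nhdsWithin_le_nhds h1
      have h2' : ∀ᶠ s in 𝓝[>] (0 : ℝ), c (y₀ + s • N x₀) = - Real.sign (g (y₀ + s • N x₀)) :=
        nhdsWithin_le_nhds h2
      have h4' : ∀ᶠ s in 𝓝[>] (0 : ℝ), s ∈ Ioi (0 : ℝ) := self_mem_nhdsWithin
      obtain ⟨s, hs1, hs2, hs3, hs4⟩ := (h1'.and (h2'.and (h3.and h4'))).exists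
      have hs0 : (0 : ℝ) < s := hs4
      have h4 := hgr y₀ (mem_ball_self hδ) s hs0.le hs1
      rw [hg0] at h4
      have h5 : 0 < k * s := mul_pos hk hs0
      rw [Real.sign_of_pos (by linarith)] at hs2
      set z := F x₀ + (r₀⁻¹ * s) • N x₀ with hz
      have hz0 : z ≠ 0 := by
        intro h0
        have := congrArg (fun t => ⟪F x₀, t⟫) h0
        simp only [hz, inner_add_right, inner_smul_right, inner_zero_right,
          real_inner_self_eq_norm_sq, hF.unit, (hN x₀).2.1] at this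
        norm_num at this
      have hzC : z ∉ cone F := by
        intro h0
        rw [(isCol_zero_iff hcol (y := z) hz0).mpr h0] at hs3
        norm_num at hs3
      have h6 := col_ray hcol hz0 hzC hr₀
      have h7 : r₀ • z = y₀ + s • N x₀ := by
        rw [hz, smul_add, smul_smul, ← mul_assoc, mul_inv_cancel₀ hr₀.ne', one_mul]
      rw [h7, hs2, hs3] at h6
      norm_num at h6
  -- choice of the box
  obtain ⟨U₀, hU₀, hU₀o, hyU₀⟩ := _root_.eventually_nhds_iff.mp (hA.and hD)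
  have hbox : ∀ᶠ q in 𝓝 q₀, q ∈ e.source ∧ Θ q ∈ U₀ := by
    have h1 : ∀ᶠ q in 𝓝 q₀, q ∈ e.source := e.open_source.mem_nhds hes
    have h2 : ∀ᶠ q in 𝓝 q₀, Θ q ∈ U₀ := by
      apply hΘs.continuousAt.eventually_mem
      rw [hΘ0]
      exact hU₀o.mem_nhds hyU₀
    exact h1.and h2
  have hB1 : ∀ᶠ q : V × ℝ in 𝓝 (φ x₀, r₀), q.1 ∈ φ.target ∧ 0 < q.2 ∧
      0 < ⟪N (φ.symm q.1), w⟫ := by
    have h1 : ∀ᶠ q : V × ℝ in 𝓝 (φ x₀, r₀), q.1 ∈ φ.target :=
      continuousAt_fst.eventually_mem (φ.open_target.mem_nhds hxT)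
    have h2 : ∀ᶠ q : V × ℝ in 𝓝 (φ x₀, r₀), 0 < q.2 :=
      continuousAt_snd.eventually (lt_mem_nhds hr₀)
    have h3 : ContinuousAt (fun q : V × ℝ => ⟪N (φ.symm q.1), w⟫) (φ x₀, r₀) := by
      have h4 : ContinuousAt (fun q : V × ℝ => φ.symm q.1) (φ x₀, r₀) :=
        ContinuousAt.comp (f := fun q : V × ℝ => q.1) (φ.continuousAt_symm hxT) continuousAt_fst
      have h5 : ContinuousAt (fun q : V × ℝ => N (φ.symm q.1)) (φ x₀, r₀) :=
        hNc.continuousAt.comp h4
      exact h5.inner continuousAt_const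
    have h6 : ∀ᶠ q : V × ℝ in 𝓝 (φ x₀, r₀), 0 < ⟪N (φ.symm q.1), w⟫ := by
      apply h3.eventually (lt_mem_nhds _)
      change 0 < ⟪N (φ.symm (φ x₀)), w⟫
      rw [hsx]
      exact hw
    exact h1.and (h2.and h6)
  rw [hq₀, nhds_prod_eq] at hbox
  obtain ⟨P, hP, Q, hQ, hPQ⟩ := eventually_prod_iff.mp hbox
  obtain ⟨B, hB, hBo, hB0⟩ := _root_.eventually_nhds_iff.mp (hP.and hB1)
  obtain ⟨ε, hε, hεQ⟩ := Metric.eventually_nhds_iff.mp hQ
  have hbs : ∀ q ∈ B ×ˢ Ioo (-ε) ε, q ∈ e.source ∧ Θ q ∈ U₀ := by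
    rintro ⟨a, τ⟩ ⟨ha, hτ⟩
    refine hPQ (hB a ha).1 (hεQ ?_)
    rw [Real.dist_eq, sub_zero, abs_lt]
    exact hτ
  have hso : IsOpen (B ×ˢ Ioo (-ε) ε) := hBo.prod isOpen_Ioo
  set e' := e.restrOpen (B ×ˢ Ioo (-ε) ε) hso with he'
  have hsource : e'.source = B ×ˢ Ioo (-ε) ε := by
    rw [he', OpenPartialHomeomorph.restrOpen_source]
    exact inter_eq_self_of_subset_right fun q hq => (hbs q hq).1
  have hcoe' : ∀ q, e' q = Θ q := by
    intro q
    rw [← hecoe]
    rfl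
  have hq₀s : q₀ ∈ e'.source := by
    rw [hsource]
    exact ⟨hB0, by constructor <;> simp [hq₀, hε]⟩
  refine ⟨e', B, ε, hε, hBo, hsource, hcoe', ?_, fun q hq => (hB q hq).2.1,
    fun q hq => (hB q hq).2.2.1, fun q hq => (hB q hq).2.2.2, ?_, ?_⟩
  · have := e'.map_source hq₀s
    rw [hcoe', hΘ0] at this
    exact this
  · intro q hq
    rw [hcoe']
    rw [hsource] at hq
    obtain ⟨h1, h2⟩ := hbs q hq
    rw [(hU₀ _ h2).2]
    change Real.sign (e.symm (Θ q)).2 = _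
    rw [← hecoe, e.left_inv h1]
  · intro x r hr hx
    have h1 := e'.map_target hx
    have h2 : e' (e'.symm (r • F x)) = r • F x := e'.right_inv hx
    rw [hcoe'] at h2
    set q := e'.symm (r • F x) with hq
    have h3 := h1
    rw [hsource] at h3
    obtain ⟨h4, h5⟩ := hbs q h3
    rw [h2] at h5
    have h6 : g (r • F x) = 0 := (hU₀ _ h5).1.mpr ⟨r, hr, x, rfl⟩
    have h7 : e.symm (r • F x) = q := by
      rw [← h2, ← hecoe, e.left_inv h4]
    have h8 : q.2 = 0 := by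
      have : (e.symm (r • F x)).2 = 0 := h6
      rw [h7] at this
      exact this
    simp only [hΘ, par] at h2
    rw [h8, zero_smul, add_zero] at h2
    have hqB := hB q.1 h3.1
    have h9 : ‖q.1.2 • f q.1.1‖ = ‖r • F x‖ := by rw [h2]
    have hun : ‖f q.1.1‖ = 1 := hF.unit _
    rw [norm_smul, norm_smul, hun, hF.unit, mul_one, mul_one, Real.norm_of_nonneg hqB.2.2.1.le,
      Real.norm_of_nonneg hr.le] at h9
    rw [h9] at h2
    have h10 : f q.1.1 = F x := by
      have := congrArg (fun z => r⁻¹ • z) h2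
      simp only [smul_smul, inv_mul_cancel₀ hr.ne', one_smul] at this
      exact this
    have h11 : φ.symm q.1.1 = x := hinj h10
    have h12 : x ∈ φ.source := by rw [← h11]; exact φ.map_target hqB.2.1
    refine ⟨h12, ?_⟩
    have h13 : φ x = q.1.1 := by rw [← h11, φ.right_inv hqB.2.1]
    rw [h13, ← h9]
    exact h3.1

end Vale.Agent.P224.TP
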