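import Vale.Agent.P224.MathlibUsed
import Vale.Agent.P224.Defs
import Vale.Agent.P224.Bdl.B2

/-!
The divergence identity for the colouring of the complement of the cone.
-/

namespace Vale.Agent.P224.TP

open Set Filter Metric Module MeasureTheory Vale.Agent.P224 Vale.Agent.P224.TwoSide
open scoped Topology RealInnerProductSpace ContDiff Manifold

set_option linter.unusedSectionVars false

variable {V W M : Type*} [NormedAddCommGroup V] [InnerProductSpace ℝ V] [FiniteDimensional ℝ V]
  [NormedAddCommGroup W] [InnerProductSpace ℝ W] [FiniteDimensional ℝ W]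
  [TopologicalSpace M] [ChartedSpace V M]
  [MeasurableSpace V] [BorelSpace V] [MeasurableSpace W] [BorelSpace W]
  [MeasurableSpace M] [BorelSpace M]

variable (V) in
/-- the divergence identity for the direction `a` and the test function `η` -/
def DivId (F N : M → W) (c : W → ℝ) (a : W) (η : W → ℝ) : Prop :=
  ∫ y, c y * fderiv ℝ η y a
    = -2 * ∫ x, ⟪N x, a⟫ * (∫ r in Ioi (0 : ℝ), η (r • F x) * r ^ finrank ℝ V) ∂(volM V F)

/-- the colouring with the normal field pointing to its positive side -/
structure ColData (F N : M → W) (c : W → ℝ) : Prop where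
  col : IsCol (cone F) {y : W | y ≠ 0} c
  meas : Measurable c
  bdd : ∀ y, |c y| ≤ 1
  smooth : ContMDiff 𝓘(ℝ, V) 𝓘(ℝ, W) ∞ N
  normal : ∀ x, IsUnitNormal V F x (N x)
  side : ∀ x, ∀ᶠ s in 𝓝[>] (0 : ℝ), c (F x + s • N x) = 1

end Vale.Agent.P224.TP
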