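import Vale.Agent.P224.TP.Defs
import Mathlib.Analysis.SpecialFunctions.SmoothTransition
import Mathlib.MeasureTheory.Integral.Gamma
import Mathlib.MeasureTheory.Integral.Pi

/-!
The Gaussian integral of the absolute value of a linear form, and a smooth cut off of the Gaussian.
-/

namespace Vale.Agent.P224.TP

open Set Filter Metric Module MeasureTheory
open scoped Topology RealInnerProductSpace ContDiff

section gauss

variable {W : Type*} [NormedAddCommGroup W] [InnerProductSpace ℝ W] [FiniteDimensional ℝ W]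
  [MeasurableSpace W] [BorelSpace W]

lemma int_abs_gauss : ∫ t : ℝ, |t| * Real.exp (-t ^ 2) = 1 := by
  have h := integral_comp_abs (f := fun t => t * Real.exp (-t ^ 2))
  simp only [sq_abs] at h
  rw [h]
  have h2 := integral_rpow_mul_exp_neg_rpow (p := 2) (q := 1) (by norm_num) (by norm_num)
  simp only [Real.rpow_one, Real.rpow_two] at h2
  rw [h2]
  norm_num

lemma int_gauss : ∫ t : ℝ, Real.exp (-t ^ 2) = √Real.pi := by
  have h := integral_gaussian 1
  simpa using h

theorem gauss_abs {n : ℕ} (hW : finrank ℝ W = n + 1) (a : W) :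
    ∫ y : W, |⟪y, a⟫| * Real.exp (-‖y‖ ^ 2) = Real.pi ^ ((n : ℝ) / 2) * ‖a‖ := by
  rcases eq_or_ne a 0 with rfl | ha
  · simp
  have hna : 0 < ‖a‖ := norm_pos_iff.mpr ha
  set e : W := ‖a‖⁻¹ • a with he
  have hen : ‖e‖ = 1 := by
    rw [he, norm_smul, norm_inv, norm_norm, inv_mul_cancel₀ hna.ne']
  have hae : a = ‖a‖ • e := by
    rw [he, smul_smul, mul_inv_cancel₀ hna.ne', one_smul]
  obtain ⟨b, hb⟩ := Orthonormal.exists_orthonormalBasis_extension_of_card_eq (𝕜 := ℝ)
    (ι := Fin (n + 1)) (by rw [hW, Fintype.card_fin]) (v := fun _ => e) (s := {0}) (by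
      constructor
      · intro i; simpa using hen
      · intro i j hij
        exact absurd (Subsingleton.elim i j) hij)
  have hb0 : b 0 = e := hb 0 rfl
  have h1 : ∫ y : W, |⟪y, a⟫| * Real.exp (-‖y‖ ^ 2)
      = ∫ z : EuclideanSpace ℝ (Fin (n + 1)),
        |⟪b.repr.symm z, a⟫| * Real.exp (-‖b.repr.symm z‖ ^ 2) :=
    (b.measurePreserving_repr_symm.integral_comp
      b.repr.symm.toHomeomorph.measurableEmbedding _).symm
  have h2 : ∀ z : EuclideanSpace ℝ (Fin (n + 1)),
      |⟪b.repr.symm z, a⟫| * Real.exp (-‖b.repr.symm z‖ ^ 2)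
        = (‖a‖ * (|z 0| * Real.exp (-(z 0) ^ 2))) * ∏ i : Fin n, Real.exp (-(z i.succ) ^ 2) := by
    intro z
    have h3 : ⟪b.repr.symm z, a⟫ = ‖a‖ * z 0 := by
      rw [hae, real_inner_smul_right, ← hb0, real_inner_comm, ← b.repr_apply_apply,
        LinearIsometryEquiv.apply_symm_apply]
      rw [norm_smul, norm_norm, hb0, hen, mul_one]
    rw [h3, LinearIsometryEquiv.norm_map, EuclideanSpace.norm_sq_eq, Fin.sum_univ_succ, abs_mul,
      abs_norm, neg_add, Real.exp_add, ← Real.exp_sum, ← Finset.sum_neg_distrib]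
    simp only [Real.norm_eq_abs, sq_abs]
    ring
  rw [h1, integral_congr_ae (Eventually.of_forall h2)]
  have h4 := (PiLp.volume_preserving_toLp (Fin (n + 1))).integral_comp
    (MeasurableEquiv.toLp 2 (Fin (n + 1) → ℝ)).measurableEmbedding
    (g := fun z : EuclideanSpace ℝ (Fin (n + 1)) =>
      (‖a‖ * (|z 0| * Real.exp (-(z 0) ^ 2))) * ∏ i : Fin n, Real.exp (-(z i.succ) ^ 2))
  rw [← h4]
  set g : Fin (n + 1) → ℝ → ℝ := Fin.cons (fun t => ‖a‖ * (|t| * Real.exp (-t ^ 2)))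
    (fun _ t => Real.exp (-t ^ 2)) with hg
  have h5 : ∀ z : Fin (n + 1) → ℝ,
      (‖a‖ * (|(WithLp.toLp 2 z : EuclideanSpace ℝ (Fin (n + 1))) 0| *
        Real.exp (-((WithLp.toLp 2 z : EuclideanSpace ℝ (Fin (n + 1))) 0) ^ 2))) *
        ∏ i : Fin n, Real.exp (-((WithLp.toLp 2 z : EuclideanSpace ℝ (Fin (n + 1))) i.succ) ^ 2)
      = ∏ i, g i (z i) := by
    intro z
    rw [Fin.prod_univ_succ]
    rfl
  rw [integral_congr_ae (Eventually.of_forall h5), integral_fintype_prod_volume_eq_prod,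
    Fin.prod_univ_succ]
  have h6 : ∫ t, g 0 t = ‖a‖ := by
    change ∫ t, ‖a‖ * (|t| * Real.exp (-t ^ 2)) = ‖a‖
    rw [integral_const_mul, int_abs_gauss, mul_one]
  have h7 : ∀ i : Fin n, ∫ t, g i.succ t = √Real.pi := by
    intro i
    change ∫ t, Real.exp (-t ^ 2) = _
    exact int_gauss
  rw [h6, Finset.prod_congr rfl fun i _ => h7 i, Finset.prod_const, Finset.card_univ,
    Fintype.card_fin, Real.sqrt_eq_rpow, ← Real.rpow_natCast, ← Real.rpow_mul Real.pi_pos.le,
    mul_comm]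
  congr 2
  ring

lemma gauss_abs_integrable (a : W) :
    Integrable fun y : W => |⟪y, a⟫| * Real.exp (-‖y‖ ^ 2) := by
  rcases eq_or_ne a 0 with rfl | ha
  · simp
  have hnt : Nontrivial W := ⟨a, 0, ha⟩
  obtain ⟨n, hn⟩ : ∃ n, finrank ℝ W = n + 1 := Nat.exists_eq_succ_of_ne_zero (finrank_pos).ne'
  by_contra h
  have h1 := gauss_abs hn a
  rw [integral_undef h] at h1
  have : 0 < Real.pi ^ ((n : ℝ) / 2) * ‖a‖ :=
    mul_pos (Real.rpow_pos_of_pos Real.pi_pos _) (norm_pos_iff.mpr ha)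
  rw [← h1] at this
  exact lt_irrefl _ this

lemma gauss_moment (m : ℕ) :
    ∫ r in Ioi (0 : ℝ), Real.exp (-r ^ 2) * r ^ m = Real.Gamma (((m : ℝ) + 1) / 2) / 2 := by
  have h := integral_rpow_mul_exp_neg_rpow (p := 2) (q := m) (by norm_num)
    (by have : (0 : ℝ) ≤ m := Nat.cast_nonneg m
        linarith)
  rw [show Real.Gamma (((m : ℝ) + 1) / 2) / 2 = 1 / 2 * Real.Gamma (((m : ℝ) + 1) / 2) by ring,
    ← h]
  refine setIntegral_congr_fun measurableSet_Ioi fun r _ => ?_
  simp only [Real.rpow_natCast, Real.rpow_two]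
  ring

lemma gauss_moment_integrable (m : ℕ) :
    IntegrableOn (fun r : ℝ => Real.exp (-r ^ 2) * r ^ m) (Ioi 0) := by
  by_contra h
  have h1 := gauss_moment m
  rw [integral_undef h] at h1
  have : 0 < Real.Gamma (((m : ℝ) + 1) / 2) / 2 := by
    have := Real.Gamma_pos_of_pos (s := ((m : ℝ) + 1) / 2) (by positivity)
    positivity
  rw [← h1] at this
  exact lt_irrefl _ this

end gauss

end Vale.Agent.P224.TP
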