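import Vale.Agent.P224.TP.Defs

/-!
The divergence identity is local.
-/

namespace Vale.Agent.P224.TP

open Set Filter Metric Module MeasureTheory Vale.Agent.P224 Vale.Agent.P224.TwoSide
open scoped Topology RealInnerProductSpace ContDiff Manifold

set_option linter.unusedSectionVars false

variable {V W M : Type*} [NormedAddCommGroup V] [InnerProductSpace ℝ V] [FiniteDimensional ℝ V]
  [NormedAddCommGroup W] [InnerProductSpace ℝ W] [FiniteDimensional ℝ W]
  [TopologicalSpace M] [ChartedSpace V M]
  [MeasurableSpace V] [BorelSpace V] [MeasurableSpace W] [BorelSpace W]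
  [MeasurableSpace M] [BorelSpace M]

/-- the left side is integrable -/
lemma integrable_left {c : W → ℝ} (hm : Measurable c) (hb : ∀ y, |c y| ≤ 1) (a : W) {η : W → ℝ}
    (hη : ContDiff ℝ 1 η) (hc : HasCompactSupport η) :
    Integrable (fun y => c y * fderiv ℝ η y a) := by
  have h1 : Continuous (fun y => fderiv ℝ η y a) :=
    (hη.continuous_fderiv one_ne_zero).clm_apply continuous_const
  have h2 : HasCompactSupport (fun y => fderiv ℝ η y a) := hc.fderiv_apply ℝ a
  have h3 : Integrable (fun y => fderiv ℝ η y a) := h1.integrable_of_hasCompactSupport h2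
  exact h3.bdd_mul hm.aestronglyMeasurable (Eventually.of_forall fun y => by
    rw [Real.norm_eq_abs]; exact hb y)

/-- the radial integral is finite -/
lemma integrable_ray {F : M → W} (hS : ∀ x, ‖F x‖ = 1) {η : W → ℝ} (hη : Continuous η)
    (hc : HasCompactSupport η) (k : ℕ) (x : M) :
    IntegrableOn (fun r : ℝ => η (r • F x) * r ^ k) (Ioi 0) := by
  obtain ⟨R, hR⟩ := hc.isCompact.isBounded.subset_closedBall 0
  have h0 : ∀ r : ℝ, R < r → η (r • F x) = 0 := by
    intro r hr
    by_contra h
    have h1 : r • F x ∈ closedBall (0 : W) R := hR (subset_tsupport _ h)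
    rw [mem_closedBall_zero_iff, norm_smul, hS, mul_one, Real.norm_eq_abs] at h1
    exact absurd (lt_of_lt_of_le (lt_of_lt_of_le hr (le_abs_self r)) h1) (lt_irrefl _)
  have h1 : IntegrableOn (fun r : ℝ => η (r • F x) * r ^ k) (Ioc 0 (max R 0)) := by
    refine Continuous.integrableOn_Ioc ?_
    fun_prop
  have h2 : IntegrableOn (fun r : ℝ => η (r • F x) * r ^ k) (Ioi (max R 0)) := by
    refine (integrableOn_zero).congr_fun (fun r hr => ?_) measurableSet_Ioi
    have : R < r := (le_max_left _ _).trans_lt hr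
    simp only [h0 r this, zero_mul]
  rw [← Ioc_union_Ioi_eq_Ioi (le_max_right R 0)]
  exact h1.union h2

/-- the radial integral -/
noncomputable def ray (F : M → W) (k : ℕ) (η : W → ℝ) (x : M) : ℝ :=
  ∫ r in Ioi (0 : ℝ), η (r • F x) * r ^ k

/-- the radial integral is a bounded continuous function -/
lemma ray_bound {F : M → W} (hS : ∀ x, ‖F x‖ = 1) {η : W → ℝ} (hη : Continuous η)
    (hc : HasCompactSupport η) (k : ℕ) : ∃ C : ℝ, ∀ x, ‖ray F k η x‖ ≤ C := by
  obtain ⟨R, hR⟩ := hc.isCompact.isBounded.subset_closedBall 0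
  obtain ⟨B, hB⟩ := hc.exists_bound_of_continuous hη
  have h0 : ∀ x : M, ∀ r : ℝ, max R 0 < r → η (r • F x) = 0 := by
    intro x r hr
    by_contra h
    have h1 : r • F x ∈ closedBall (0 : W) R := hR (subset_tsupport _ h)
    rw [mem_closedBall_zero_iff, norm_smul, hS, mul_one, Real.norm_eq_abs] at h1
    exact absurd (lt_of_lt_of_le (lt_of_lt_of_le ((le_max_left _ _).trans_lt hr)
      (le_abs_self r)) h1) (lt_irrefl _)
  refine ⟨∫ r in Ioi (0 : ℝ), (Ioc (0 : ℝ) (max R 0)).indicator (fun _ => B * (max R 0) ^ k) r,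
    fun x => ?_⟩
  refine norm_integral_le_of_norm_le ?_ ?_
  · refine Integrable.integrableOn ?_
    rw [integrable_indicator_iff measurableSet_Ioc]
    exact integrableOn_const (by simp)
  · refine (ae_restrict_iff' measurableSet_Ioi).2 (Eventually.of_forall fun r hr => ?_)
    by_cases h : r ≤ max R 0
    · have hmem : r ∈ Ioc (0 : ℝ) (max R 0) := ⟨hr, h⟩
      rw [indicator_of_mem hmem, norm_mul, norm_pow]
      have hB0 : 0 ≤ B := (norm_nonneg _).trans (hB (r • F x))
      have h3 : ‖r‖ ≤ max R 0 := by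
        rw [Real.norm_eq_abs, abs_of_pos hr]
        exact h
      have := hB (r • F x)
      gcongr
    · push Not at h
      rw [h0 x r h, zero_mul, norm_zero, indicator_of_notMem]
      exact fun h' => absurd (h'.2) (not_le.2 h)

lemma ray_meas {F : M → W} (hF : Continuous F) {η : W → ℝ} (hη : Continuous η) (k : ℕ) :
    StronglyMeasurable (ray F k η) := by
  have h1 : StronglyMeasurable (Function.uncurry fun (x : M) (r : ℝ) => η (r • F x) * r ^ k) := by
    have : Measurable (Function.uncurry fun (x : M) (r : ℝ) => η (r • F x) * r ^ k) := by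
      have hFm : Measurable F := hF.measurable
      have h2 : Measurable (fun q : M × ℝ => q.2 • F q.1) :=
        measurable_snd.smul (hFm.comp measurable_fst)
      exact (hη.measurable.comp h2).mul (measurable_snd.pow_const k)
    exact this.stronglyMeasurable
  exact h1.integral_prod_right

/-- the right side is integrable -/
lemma integrable_right [IsManifold 𝓘(ℝ, V) ∞ M] [CompactSpace M] {F N : M → W}
    (hF : SphImm V F) (hN : ContMDiff 𝓘(ℝ, V) 𝓘(ℝ, W) ∞ N)
    (hn : ∀ x, ‖N x‖ = 1) (a : W) {η : W → ℝ} (hη : Continuous η) (hc : HasCompactSupport η)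
    (k : ℕ) : Integrable (fun x => ⟪N x, a⟫ * ray F k η x) (volM V F) := by
  have hfin : IsFiniteMeasure (volM V F) := isFiniteMeasure_volM hF
  obtain ⟨C, hC⟩ := ray_bound hF.unit hη hc k
  have hm : StronglyMeasurable (fun x => ⟪N x, a⟫ * ray F k η x) := by
    have h1 : Measurable (fun x => ⟪N x, a⟫) := (hN.continuous.inner continuous_const).measurable
    exact h1.stronglyMeasurable.mul (ray_meas hF.smooth.continuous hη k)
  refine Integrable.of_bound hm.aestronglyMeasurable (‖a‖ * C) (Eventually.of_forall fun x => ?_)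
  rw [norm_mul]
  have h1 : ‖⟪N x, a⟫‖ ≤ ‖a‖ := by
    have := norm_inner_le_norm (𝕜 := ℝ) (N x) a
    rwa [hn x, one_mul] at this
  exact mul_le_mul h1 (hC x) (norm_nonneg _) (norm_nonneg _)

/-- the identity is additive -/
lemma DivId.sum [IsManifold 𝓘(ℝ, V) ∞ M] [CompactSpace M] {F N : M → W} (hF : SphImm V F)
    {c : W → ℝ} (hc : ColData (V := V) F N c) (a : W) {ι : Type*} (s : Finset ι)
    {η : ι → W → ℝ} (h1 : ∀ i ∈ s, ContDiff ℝ 1 (η i)) (h2 : ∀ i ∈ s, HasCompactSupport (η i))
    (h3 : ∀ i ∈ s, DivId V F N c a (η i)) : DivId V F N c a (fun y => ∑ i ∈ s, η i y) := by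
  unfold DivId
  have e1 : ∀ y, c y * fderiv ℝ (fun y => ∑ i ∈ s, η i y) y a
      = ∑ i ∈ s, c y * fderiv ℝ (η i) y a := by
    intro y
    rw [fderiv_fun_sum fun i hi => ((h1 i hi).differentiable (by norm_num)).differentiableAt]
    simp only [sum_apply, Finset.mul_sum]
  have e2 : ∀ x, ∫ r in Ioi (0 : ℝ), (∑ i ∈ s, η i (r • F x)) * r ^ finrank ℝ V
      = ∑ i ∈ s, ray F (finrank ℝ V) (η i) x := by
    intro x
    simp only [Finset.sum_mul]
    rw [integral_finsetSum s fun i hi =>
      integrable_ray hF.unit (h1 i hi).continuous (h2 i hi) (finrank ℝ V) x]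
    rfl
  simp only [e1, e2, Finset.mul_sum]
  rw [integral_finsetSum s fun i hi => integrable_left hc.meas hc.bdd a (h1 i hi) (h2 i hi),
    integral_finsetSum s fun i hi => integrable_right hF hc.smooth (fun x => (hc.normal x).1) a
      (h1 i hi).continuous (h2 i hi) (finrank ℝ V)]
  rw [Finset.mul_sum]
  refine Finset.sum_congr rfl fun i hi => ?_
  exact h3 i hi

theorem globalise [IsManifold 𝓘(ℝ, V) ∞ M] [CompactSpace M] {F N : M → W} (hF : SphImm V F)
    {c : W → ℝ} (hc : ColData (V := V) F N c) (a : W)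
    (h : ∀ y : W, y ≠ 0 → ∃ O ∈ 𝓝 y, ∀ η : W → ℝ, ContDiff ℝ 1 η → HasCompactSupport η →
      tsupport η ⊆ O → DivId V F N c a η) :
    ∀ η : W → ℝ, ContDiff ℝ 1 η → HasCompactSupport η → 0 ∉ tsupport η →
      DivId V F N c a η := by
  classical
  intro η hη hs h0
  choose! O hO hD using h
  have hcov : ∀ y ∈ tsupport η, y ≠ 0 := fun y hy h => h0 (h ▸ hy)
  obtain ⟨t, ht1, ht2⟩ := hs.isCompact.elim_nhds_subcover (fun y => interior (O y))
    (fun y hy => interior_mem_nhds.2 (hO y (hcov y hy)))
  obtain ⟨f, hf⟩ := SmoothPartitionOfUnity.exists_isSubordinate 𝓘(ℝ, W) (isClosed_tsupport η)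
    (fun y : t => interior (O y)) (fun y => isOpen_interior) (by
      intro y hy
      have := ht2 hy
      simp only [mem_iUnion] at this ⊢
      obtain ⟨i, hi, hy⟩ := this
      exact ⟨⟨i, hi⟩, hy⟩)
  have hfs : ∀ i, ContDiff ℝ 1 (f i) := fun i => ((f i).contMDiff.contDiff).of_le (by norm_num)
  have hsum : ∀ y ∈ tsupport η, ∑ i : t, f i y = 1 := by
    intro y hy
    rw [← f.sum_eq_one hy, finsum_eq_sum_of_fintype]
  have hη2 : η = fun y => ∑ i ∈ (Finset.univ : Finset t), f i y * η y := by
    ext y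
    rw [← Finset.sum_mul]
    by_cases hy : y ∈ tsupport η
    · rw [hsum y hy, one_mul]
    · rw [image_eq_zero_of_notMem_tsupport hy, mul_zero]
  have hts : ∀ i : t, tsupport (fun y => f i y * η y) ⊆ tsupport (f i) ∩ tsupport η := by
    intro i
    refine subset_inter ?_ ?_
    · exact tsupport_mul_subset_left
    · exact tsupport_mul_subset_right
  rw [hη2]
  refine DivId.sum hF hc a _ (fun i _ => (hfs i).mul hη) (fun i _ => ?_) (fun i _ => ?_)
  · exact hs.of_isClosed_subset (isClosed_tsupport _) ((hts i).trans inter_subset_right)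
  · refine hD i (hcov i (ht1 i i.2)) _ ((hfs i).mul hη) ?_ ?_
    · exact hs.of_isClosed_subset (isClosed_tsupport _) ((hts i).trans inter_subset_right)
    · exact ((hts i).trans inter_subset_left).trans ((hf i).trans interior_subset)

end Vale.Agent.P224.TP
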