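import Vale.Agent.P224.TP.Defs

/-!
Change of variables for the coordinates `((v, r), τ) ↦ r f(v) + τ w` near the cone.
-/

namespace Vale.Agent.P224.TP

open Set Filter Metric Module MeasureTheory Vale.Agent.P224 Vale.Agent.P224.TwoSide
open scoped Topology RealInnerProductSpace ContDiff Manifold

set_option linter.unusedSectionVars false

section

open Matrix

variable {m : ℕ}

/-- the determinant of a frame whose last vector is arbitrary -/
lemma abs_det_frame (d : Fin m → EuclideanSpace ℝ (Fin (m + 2)))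
    (p n w : EuclideanSpace ℝ (Fin (m + 2))) (hp : ‖p‖ = 1) (hn : ‖n‖ = 1) (hpn : ⟪p, n⟫ = 0)
    (hdp : ∀ i, ⟪d i, p⟫ = 0) (hdn : ∀ i, ⟪d i, n⟫ = 0) (hg : 0 < (Matrix.gram ℝ d).det) :
    |(Mat (frame d p w)).det| = Real.sqrt (Matrix.gram ℝ d).det * |⟪n, w⟫| := by
  have hdp' : ∀ i, ⟪p, d i⟫ = 0 := fun i => by rw [real_inner_comm]; exact hdp i
  have hdn' : ∀ i, ⟪n, d i⟫ = 0 := fun i => by rw [real_inner_comm]; exact hdn i
  have hnp : ⟪n, p⟫ = 0 := by rw [real_inner_comm]; exact hpn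
  have hprod : (Mat (frame d p n))ᵀ * Mat (frame d p w)
      = fromBlocks (Matrix.gram ℝ d) (Matrix.of fun i (j : Fin 2) => ⟪d i, (![p, w] : Fin 2 → _) j⟫)
          0 !![1, ⟪p, w⟫; 0, ⟪n, w⟫] := by
    rw [Mat_transpose_mul]
    ext s t
    rcases s with s | s <;> rcases t with t | t
    · simp [frame]
    · simp [frame]
    · fin_cases s <;> simp [frame, hdp', hdn']
    · fin_cases s <;> fin_cases t <;> simp [frame, hp, hnp]
  have hdet := congrArg Matrix.det hprod
  rw [det_mul, det_transpose, det_fromBlocks_zero₂₁, det_fin_two_of, one_mul, mul_zero,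
    sub_zero] at hdet
  have hsq := frame_det_sq d p n hp hn hpn hdp hdn
  have hsqrt : Real.sqrt (Matrix.gram ℝ d).det = |(Mat (frame d p n)).det| := by
    rw [← Real.sqrt_sq_eq_abs, hsq]
  have hpos : 0 < Real.sqrt (Matrix.gram ℝ d).det := Real.sqrt_pos.2 hg
  have h1 : Real.sqrt (Matrix.gram ℝ d).det * |(Mat (frame d p w)).det|
      = (Matrix.gram ℝ d).det * |⟪n, w⟫| := by
    rw [hsqrt, ← abs_mul, hdet, abs_mul, abs_of_pos hg]
  have h2 : (Matrix.gram ℝ d).det
      = Real.sqrt (Matrix.gram ℝ d).det * Real.sqrt (Matrix.gram ℝ d).det :=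
    (Real.mul_self_sqrt hg.le).symm
  have h3 : Real.sqrt (Matrix.gram ℝ d).det * |(Mat (frame d p w)).det|
      = Real.sqrt (Matrix.gram ℝ d).det * (Real.sqrt (Matrix.gram ℝ d).det * |⟪n, w⟫|) := by
    rw [h1, ← mul_assoc, ← h2]
  exact mul_left_cancel₀ hpos.ne' h3

end

variable {V W M : Type*} [NormedAddCommGroup V] [InnerProductSpace ℝ V] [FiniteDimensional ℝ V]
  [NormedAddCommGroup W] [InnerProductSpace ℝ W] [FiniteDimensional ℝ W]
  [TopologicalSpace M] [ChartedSpace V M]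
  [MeasurableSpace V] [BorelSpace V] [MeasurableSpace W] [BorelSpace W]
  [MeasurableSpace M] [BorelSpace M]

/-- coordinates of the plane -/
noncomputable def eTwo : (ℝ × ℝ) ≃L[ℝ] EuclideanSpace ℝ (Fin 2) :=
  (ContinuousLinearEquiv.finTwoArrow ℝ ℝ).symm.trans (EuclideanSpace.equiv (Fin 2) ℝ).symm

lemma eTwo_apply (q : ℝ × ℝ) : eTwo q = WithLp.toLp 2 ![q.1, q.2] := rfl

lemma eTwo_mp : MeasurePreserving (eTwo : ℝ × ℝ → EuclideanSpace ℝ (Fin 2)) := by
  have h1 := (volume_preserving_finTwoArrow ℝ).symm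
  have h2 := PiLp.volume_preserving_toLp (Fin 2)
  exact h2.comp h1

variable (V) in
/-- coordinates of the source -/
noncomputable def cA : ((V × ℝ) × ℝ) ≃L[ℝ]
    EuclideanSpace ℝ (Fin (finrank ℝ V)) × EuclideanSpace ℝ (Fin 2) :=
  (ContinuousLinearEquiv.prodAssoc ℝ V ℝ ℝ).trans
    ((iV V).toContinuousLinearEquiv.prodCongr eTwo)

lemma cA_apply (q : (V × ℝ) × ℝ) : cA V q = (iV V q.1.1, eTwo (q.1.2, q.2)) := rfl

lemma cA_mp : MeasurePreserving (cA V) := by
  have h1 : MeasurePreserving (MeasurableEquiv.prodAssoc : (V × ℝ) × ℝ ≃ᵐ V × ℝ × ℝ) :=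
    ⟨MeasurableEquiv.prodAssoc.measurable, Measure.prodAssoc_prod⟩
  have h2 : MeasurePreserving (Prod.map (iV V) eTwo) := (iV V).measurePreserving.prod eTwo_mp
  exact h2.comp h1

/-- coordinates of the target -/
noncomputable def cB (hW : finrank ℝ W = finrank ℝ V + 2) : W ≃L[ℝ]
    EuclideanSpace ℝ (Fin (finrank ℝ V)) × EuclideanSpace ℝ (Fin 2) :=
  (iW hW).toContinuousLinearEquiv.trans (Te (finrank ℝ V))

lemma cB_mp (hW : finrank ℝ W = finrank ℝ V + 2) : MeasurePreserving (cB hW) :=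
  (Te_measurePreserving _).comp (iW hW).measurePreserving

/-- the measure preserving identification -/
noncomputable def cL (hW : finrank ℝ W = finrank ℝ V + 2) : W ≃L[ℝ] ((V × ℝ) × ℝ) :=
  (cB hW).trans (cA V).symm

lemma cL_mp (hW : finrank ℝ W = finrank ℝ V + 2) : MeasurePreserving (cL hW) := by
  have h1 : MeasurePreserving (cA V).symm :=
    MeasurePreserving.symm (cA V).toHomeomorph.toMeasurableEquiv cA_mp
  exact h1.comp (cB_mp hW)

/-- the derivative of the coordinates near the cone -/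
noncomputable def dTh (f : V → W) (w : W) (q : (V × ℝ) × ℝ) : ((V × ℝ) × ℝ) →L[ℝ] W :=
  (q.1.2 • (fderiv ℝ f q.1.1).comp (ContinuousLinearMap.fst ℝ V ℝ)
    + (ContinuousLinearMap.snd ℝ V ℝ).smulRight (f q.1.1)).comp
      (ContinuousLinearMap.fst ℝ (V × ℝ) ℝ)
    + (ContinuousLinearMap.snd ℝ (V × ℝ) ℝ).smulRight w

lemma dTh_apply (f : V → W) (w : W) (q : (V × ℝ) × ℝ) (v : V) (a b : ℝ) :
    dTh f w q ((v, a), b) = q.1.2 • fderiv ℝ f q.1.1 v + a • f q.1.1 + b • w := rfl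

lemma hasFDerivAt_Th {f : V → W} {T : Set V} (h : ImmV f T) (w : W) {q : (V × ℝ) × ℝ}
    (hq : q.1.1 ∈ T) :
    HasFDerivAt (fun q : (V × ℝ) × ℝ => q.1.2 • f q.1.1 + q.2 • w) (dTh f w q) q := by
  have hd : HasFDerivAt f (fderiv ℝ f q.1.1) q.1.1 :=
    ((h.smooth.contDiffAt (h.isOpen.mem_nhds hq)).differentiableAt (by norm_num)).hasFDerivAt
  have h1 : HasFDerivAt (fun q : (V × ℝ) × ℝ => q.1.1) ((ContinuousLinearMap.fst ℝ V ℝ).comp
      (ContinuousLinearMap.fst ℝ (V × ℝ) ℝ)) q :=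
    HasFDerivAt.comp q hasFDerivAt_fst hasFDerivAt_fst
  have h2 : HasFDerivAt (fun q : (V × ℝ) × ℝ => q.1.2) ((ContinuousLinearMap.snd ℝ V ℝ).comp
      (ContinuousLinearMap.fst ℝ (V × ℝ) ℝ)) q :=
    HasFDerivAt.comp q hasFDerivAt_snd hasFDerivAt_fst
  have h3 : HasFDerivAt (fun q : (V × ℝ) × ℝ => f q.1.1) ((fderiv ℝ f q.1.1).comp
      ((ContinuousLinearMap.fst ℝ V ℝ).comp (ContinuousLinearMap.fst ℝ (V × ℝ) ℝ))) q :=
    hd.comp q h1
  have h4 : HasFDerivAt (fun q : (V × ℝ) × ℝ => q.2 • w)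
      ((ContinuousLinearMap.snd ℝ (V × ℝ) ℝ).smulRight w) q :=
    hasFDerivAt_snd.smul_const w
  have h5 := (h2.smul h3).add h4
  refine h5.congr_fderiv ?_
  ext v
  · simp [dTh]
  · simp [dTh]
  · simp [dTh]

/-- the Jacobian determinant -/
lemma abs_det_dTh [IsManifold 𝓘(ℝ, V) ∞ M] (hW : finrank ℝ W = finrank ℝ V + 2) {F N : M → W}
    (hF : SphImm V F) (hN : ∀ x, IsUnitNormal V F x (N x)) (x₀ : M) (w : W)
    {q : (V × ℝ) × ℝ} (hq : q.1.1 ∈ (chartAt V x₀).target) (hr : 0 < q.1.2) :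
    |((cL hW : W →L[ℝ] _).comp (dTh (rep F x₀) w q)).det|
      = q.1.2 ^ finrank ℝ V * Real.sqrt (metricMat (rep F x₀) q.1.1).det
        * |⟪N ((chartAt V x₀).symm q.1.1), w⟫| := by
  have hI := immV_rep hF x₀
  set f := rep (V := V) F x₀ with hf
  set u := q.1.1 with hu
  set r := q.1.2 with hrdef
  set D : EuclideanSpace ℝ (Fin (finrank ℝ V)) × EuclideanSpace ℝ (Fin 2) →L[ℝ]
      EuclideanSpace ℝ (Fin (finrank ℝ V + 2)) :=
    ((iW hW).toContinuousLinearEquiv : W →L[ℝ] _).comp ((dTh f w q).comp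
      ((cA V).symm : _ →L[ℝ] _)) with hD
  have hconj : ((cL hW : W →L[ℝ] _).comp (dTh f w q)).det
      = ((Te (finrank ℝ V) : _ →L[ℝ] _).comp D).det := by
    have h1 := LinearMap.det_conj ((((cL hW : W →L[ℝ] ((V × ℝ) × ℝ)).comp (dTh f w q)) :
      ((V × ℝ) × ℝ) →L[ℝ] ((V × ℝ) × ℝ)) : ((V × ℝ) × ℝ) →ₗ[ℝ] ((V × ℝ) × ℝ))
      (cA V).toLinearEquiv
    rw [ContinuousLinearMap.det, ← h1, ContinuousLinearMap.det]
    congr 1
    ext z <;> simp [cL, cB, hD]
  rw [hconj, det_Te_comp]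
  set d : Fin (finrank ℝ V) → EuclideanSpace ℝ (Fin (finrank ℝ V + 2)) :=
    fun i => r • iW hW (pd f i u) with hd
  have hcols : (Sum.elim (fun i => D (EuclideanSpace.single i 1, 0))
        (fun j => D (0, EuclideanSpace.single j 1))) = frame d (iW hW (f u)) (iW hW w) := by
    have hs1 : ∀ i : Fin (finrank ℝ V), (cA V).symm (EuclideanSpace.single i 1, 0)
        = ((stdOrthonormalBasis ℝ V i, 0), 0) := by
      intro i
      rw [ContinuousLinearEquiv.symm_apply_eq, cA_apply]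
      ext j
      · simp [iV]
      · fin_cases j <;> simp [eTwo_apply]
    have hs2 : (cA V).symm (0, EuclideanSpace.single 0 1) = ((0, 1), 0) := by
      rw [ContinuousLinearEquiv.symm_apply_eq, cA_apply]
      ext j
      · simp
      · fin_cases j <;> simp [eTwo_apply]
    have hs3 : (cA V).symm (0, EuclideanSpace.single 1 1) = ((0, 0), 1) := by
      rw [ContinuousLinearEquiv.symm_apply_eq, cA_apply]
      ext j
      · simp
      · fin_cases j <;> simp [eTwo_apply]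
    have hDapp : ∀ z, D z = iW hW (dTh f w q ((cA V).symm z)) := fun z => rfl
    funext s
    rcases s with s | s
    · simp only [Sum.elim_inl, frame, hd]
      rw [hDapp, hs1 s, dTh_apply]
      simp [pd, hu, hrdef]
    · fin_cases s
      · change D (0, EuclideanSpace.single 0 1) = iW hW (f u)
        rw [hDapp, hs2, dTh_apply]
        simp [hu]
      · change D (0, EuclideanSpace.single 1 1) = iW hW w
        rw [hDapp, hs3, dTh_apply]
        simp
  rw [hcols]
  have hgram : Matrix.gram ℝ d = r ^ 2 • metricMat f u := by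
    ext i j
    rw [Matrix.gram_apply, Matrix.smul_apply, metricMat, Matrix.gram_apply, hd]
    simp only [inner_smul_left, inner_smul_right, (iW hW).inner_map_map, conj_trivial, smul_eq_mul]
    ring
  have hGpos : 0 < (metricMat f u).det := by
    have h1 := (hI.imm (hW := hW)).G_posDef (u := iV V u) (by
      rw [mem_preimage, LinearIsometryEquiv.symm_apply_apply]; exact hq)
    rw [G_tr] at h1
    exact h1.det_pos
  have hdetg : (Matrix.gram ℝ d).det = (r ^ finrank ℝ V) ^ 2 * (metricMat f u).det := by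
    rw [hgram, Matrix.det_smul, Fintype.card_fin]
    ring
  have hf1 : ‖f u‖ = 1 := hI.unit u hq
  set n := N ((chartAt V x₀).symm u) with hn
  have hn1 : ‖n‖ = 1 := (hN _).1
  have hfn : ⟪f u, n⟫ = 0 := (hN ((chartAt V x₀).symm u)).2.1
  have hdf : ∀ i, ⟪pd f i u, f u⟫ = 0 := fun i => FV.inner_rep_F_fderiv hI hq _
  have hdn : ∀ i, ⟪pd f i u, n⟫ = 0 := fun i => FV.normal_rep hF hN x₀ hq _
  rw [abs_det_frame d (iW hW (f u)) (iW hW n) (iW hW w) (by rw [(iW hW).norm_map, hf1])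
    (by rw [(iW hW).norm_map, hn1]) (by rw [(iW hW).inner_map_map, hfn])
    (fun i => by rw [hd]; simp only [inner_smul_left, (iW hW).inner_map_map, hdf, mul_zero])
    (fun i => by rw [hd]; simp only [inner_smul_left, (iW hW).inner_map_map, hdn, mul_zero])
    (by rw [hdetg]; positivity), (iW hW).inner_map_map, hdetg, Real.sqrt_mul (sq_nonneg _),
    Real.sqrt_sq (by positivity)]

/-- Change of variables near the cone. -/
theorem chart_image [IsManifold 𝓘(ℝ, V) ∞ M] (hW : finrank ℝ W = finrank ℝ V + 2) {F N : M → W}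
    (hF : SphImm V F) (hN : ∀ x, IsUnitNormal V F x (N x)) (x₀ : M) (w : W) {B : Set (V × ℝ)}
    {J : Set ℝ} (hB : IsOpen B) (hJ : IsOpen J)
    (hBt : ∀ q ∈ B, q.1 ∈ (chartAt V x₀).target ∧ 0 < q.2)
    (hi : InjOn (fun q : (V × ℝ) × ℝ => q.1.2 • rep F x₀ q.1.1 + q.2 • w) (B ×ˢ J)) (g : W → ℝ) :
    ∫ y in (fun q : (V × ℝ) × ℝ => q.1.2 • rep F x₀ q.1.1 + q.2 • w) '' (B ×ˢ J), g y
      = ∫ q in B ×ˢ J, g (q.1.2 • rep F x₀ q.1.1 + q.2 • w)
        * (q.1.2 ^ finrank ℝ V * Real.sqrt (metricMat (rep F x₀) q.1.1).det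
          * |⟪N ((chartAt V x₀).symm q.1.1), w⟫|) := by
  have hI := immV_rep hF x₀
  set Θ : (V × ℝ) × ℝ → W := fun q => q.1.2 • rep F x₀ q.1.1 + q.2 • w with hΘ
  have hS : MeasurableSet (B ×ˢ J) := (hB.prod hJ).measurableSet
  have hmeas : MeasurableEmbedding (cL hW) := (cL hW).toHomeomorph.measurableEmbedding
  have h1 := (cL_mp hW).setIntegral_image_emb hmeas (fun z => g ((cL hW).symm z)) (Θ '' (B ×ˢ J))
  simp only [ContinuousLinearEquiv.symm_apply_apply] at h1
  rw [← h1, image_image]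
  have hder : ∀ q ∈ B ×ˢ J, HasFDerivWithinAt (fun q => cL hW (Θ q))
      ((cL hW : W →L[ℝ] _).comp (dTh (rep F x₀) w q)) (B ×ˢ J) q := by
    intro q hq
    exact ((cL hW).toContinuousLinearMap.hasFDerivAt.comp q
      (hasFDerivAt_Th hI w (hBt q.1 hq.1).1)).hasFDerivWithinAt
  have hinj : InjOn (fun q => cL hW (Θ q)) (B ×ˢ J) := fun a ha b hb hab =>
    hi ha hb ((cL hW).injective hab)
  have hh1 : (volume : Measure (V × ℝ)).IsAddHaarMeasure := by
    rw [Measure.volume_eq_prod]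
    infer_instance
  have hh2 : (volume : Measure ((V × ℝ) × ℝ)).IsAddHaarMeasure := by
    rw [Measure.volume_eq_prod]
    infer_instance
  rw [integral_image_eq_integral_abs_det_fderiv_smul volume hS hder hinj]
  refine setIntegral_congr_fun hS fun q hq => ?_
  obtain ⟨hq1, hq2⟩ := hBt q.1 hq.1
  simp only [ContinuousLinearEquiv.symm_apply_apply]
  rw [abs_det_dTh hW hF hN x₀ w hq1 hq2, smul_eq_mul, mul_comm]

end Vale.Agent.P224.TP
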