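import Vale.Agent.P224.TP.Coord2
import Vale.Agent.P224.TP.Image
import Vale.Agent.P224.TP.Glob

/-!
The divergence identity near a point of the cone.
-/

namespace Vale.Agent.P224.TP

open Set Filter Metric Module MeasureTheory Vale.Agent.P224 Vale.Agent.P224.TwoSide
open scoped Topology RealInnerProductSpace ContDiff Manifold

set_option linter.unusedSectionVars false

/-- integral of the derivative against the sign -/
lemma line_int {k : ℝ → ℝ} (hk : ContDiff ℝ 1 k) (hc : HasCompactSupport k) :
    ∫ τ, Real.sign τ * deriv k τ = -2 * k 0 := by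
  have hd : Continuous (deriv k) := hk.continuous_deriv le_rfl
  have hi : Integrable (deriv k) := hd.integrable_of_hasCompactSupport hc.deriv
  have h1 : ∫ τ in Ioi (0 : ℝ), Real.sign τ * deriv k τ = - k 0 := by
    rw [← hc.integral_Ioi_deriv_eq hk 0]
    refine setIntegral_congr_fun measurableSet_Ioi fun τ hτ => ?_
    simp only [Real.sign_of_pos hτ, one_mul]
  have h2 : ∫ τ in Iic (0 : ℝ), Real.sign τ * deriv k τ = - k 0 := by
    rw [← hc.integral_Iic_deriv_eq hk 0, integral_Iic_eq_integral_Iio, integral_Iic_eq_integral_Iio,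
      ← integral_neg]
    refine setIntegral_congr_fun measurableSet_Iio fun τ hτ => ?_
    simp only [Real.sign_of_neg hτ, neg_mul, one_mul]
  have hsm : Measurable Real.sign := by
    unfold Real.sign
    exact Measurable.ite measurableSet_Iio measurable_const
      (Measurable.ite measurableSet_Ioi measurable_const measurable_const)
  have h3 : Integrable (fun τ => Real.sign τ * deriv k τ) :=
    hi.bdd_mul (c := 1) hsm.aestronglyMeasurable (Eventually.of_forall fun τ => by
      rcases Real.sign_apply_eq τ with h | h | h <;> rw [h] <;> norm_num)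
  rw [← integral_add_compl (measurableSet_Iic (a := (0 : ℝ))) h3, compl_Iic, h1, h2]
  ring

lemma measurable_rsign : Measurable Real.sign := by
  unfold Real.sign
  exact Measurable.ite measurableSet_Iio measurable_const
    (Measurable.ite measurableSet_Ioi measurable_const measurable_const)

variable {V W M : Type*} [NormedAddCommGroup V] [InnerProductSpace ℝ V] [FiniteDimensional ℝ V]
  [NormedAddCommGroup W] [InnerProductSpace ℝ W] [FiniteDimensional ℝ W]
  [TopologicalSpace M] [ChartedSpace V M]
  [MeasurableSpace V] [BorelSpace V] [MeasurableSpace W] [BorelSpace W]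
  [MeasurableSpace M] [BorelSpace M]

/-- change of variables for the volume, measurable version -/
lemma integral_chart' [IsManifold 𝓘(ℝ, V) ∞ M] {F : M → W} (hF : SphImm V F) (x : M) {g : M → ℝ}
    (hg : StronglyMeasurable g) (hs : ∀ p, p ∉ (chartAt V x).source → g p = 0) :
    ∫ p, g p ∂(volM V F) = ∫ u in (chartAt V x).target,
      Real.sqrt (metricMat (rep F x) u).det * g ((chartAt V x).symm u) := by
  have h1 : ∫ p, g p ∂(volM V F) = ∫ p in (chartAt V x).source, g p ∂(volM V F) :=
    (setIntegral_eq_integral_of_forall_compl_eq_zero hs).symm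
  have hT := (chartAt V x).open_target.measurableSet
  have hae : AEMeasurable (chartAt V x).symm ((volume.withDensity fun u : V =>
      ENNReal.ofReal (Real.sqrt (metricMat (rep F x) u).det)).restrict (chartAt V x).target) :=
    (chartAt V x).continuousOn_symm.aemeasurable hT
  rw [h1, volM_restrict_source hF x]
  unfold chartMeas
  rw [integral_map hae hg.aestronglyMeasurable, restrict_withDensity hT,
    integral_withDensity_eq_integral_toReal_smul₀]
  · refine integral_congr_ae ?_
    filter_upwards with u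
    rw [ENNReal.toReal_ofReal (Real.sqrt_nonneg _), smul_eq_mul]
  · exact ((measurable_rep_det hF x).aemeasurable hT).ennreal_ofReal
  · filter_upwards with u
    exact ENNReal.ofReal_lt_top

/-- the identity near a point of the cone for a direction in the positive half space -/
theorem local_pos [IsManifold 𝓘(ℝ, V) ∞ M] [CompactSpace M]
    (hW : finrank ℝ W = finrank ℝ V + 2) {F N : M → W} (hF : SphImm V F)
    (hinj : Function.Injective F) {c : W → ℝ}
    (hc : ColData (V := V) F N c) (x₀ : M) {r₀ : ℝ} (hr₀ : 0 < r₀) {w : W}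
    (hw : 0 < ⟪N x₀, w⟫) :
    ∃ O ∈ 𝓝 (r₀ • F x₀), ∀ η : W → ℝ, ContDiff ℝ 1 η → HasCompactSupport η → tsupport η ⊆ O →
      DivId V F N c w η := by
  obtain ⟨e, B, ε, hC⟩ := exists_coords (V := V) hW hF hinj hc.col hc.smooth.continuous hc.normal
    hc.side x₀ hr₀ hw
  refine ⟨e.target, e.open_target.mem_nhds hC.mem, ?_⟩
  intro η hη hcη hsub
  have hI := immV_rep hF x₀
  set φ := chartAt V x₀ with hφ
  set f : V → W := rep F x₀ with hf
  set Θ : (V × ℝ) × ℝ → W := par f w with hΘ
  set J : Set ℝ := Ioo (-ε) ε with hJ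
  set S : Set ((V × ℝ) × ℝ) := B ×ˢ J with hS
  have heΘ : (e : (V × ℝ) × ℝ → W) = Θ := funext hC.coe
  have hsrc : e.source = S := hC.source
  have hSo : IsOpen S := hC.isOpen.prod isOpen_Ioo
  have h0J : (0 : ℝ) ∈ J := ⟨by linarith [hC.epos], hC.epos⟩
  set K : Set ((V × ℝ) × ℝ) := e.symm '' tsupport η with hK
  have hKc : IsCompact K := hcη.isCompact.image_of_continuousOn (e.continuousOn_symm.mono hsub)
  have hKS : K ⊆ S := by
    rintro _ ⟨y, hy, rfl⟩
    rw [← hsrc]
    exact e.map_target (hsub hy)
  set H : (V × ℝ) × ℝ → ℝ := S.indicator (fun q => η (Θ q)) with hH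
  have hHS : ∀ q ∈ S, H q = η (Θ q) := fun q hq => by rw [hH, indicator_of_mem hq]
  have hH0 : ∀ q, q ∉ K → H q = 0 := by
    intro q hq
    by_cases hqS : q ∈ S
    · rw [hHS q hqS]
      apply image_eq_zero_of_notMem_tsupport
      intro hmem
      apply hq
      refine ⟨_, hmem, ?_⟩
      rw [← heΘ]
      exact e.left_inv (by rw [hsrc]; exact hqS)
    · rw [hH, indicator_of_notMem hqS]
  have hΘd : ∀ q ∈ S, ContDiffAt ℝ 1 Θ q := by
    intro q hq
    apply contDiffAt_par
    exact (hI.smooth.contDiffAt (hI.isOpen.mem_nhds (hC.tgt _ hq.1))).of_le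
      (by exact_mod_cast le_top)
  have hHev : ∀ q ∈ S, H =ᶠ[𝓝 q] fun q => η (Θ q) := by
    intro q hq
    filter_upwards [hSo.mem_nhds hq] with q' hq' using hHS q' hq'
  have hHev0 : ∀ q, q ∉ S → H =ᶠ[𝓝 q] fun _ => 0 := by
    intro q hq
    have hqK : q ∉ K := fun h => hq (hKS h)
    filter_upwards [hKc.isClosed.isOpen_compl.mem_nhds hqK] with q' hq' using hH0 q' hq'
  have hHd : ContDiff ℝ 1 H := by
    rw [contDiff_iff_contDiffAt]
    intro q
    by_cases hq : q ∈ S
    · exact ((hη.contDiffAt.comp q (hΘd q hq))).congr_of_eventuallyEq (hHev q hq)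
    · exact contDiffAt_const.congr_of_eventuallyEq (hHev0 q hq)
  -- slices
  have hslice : ∀ z : V × ℝ, ContDiff ℝ 1 (fun τ : ℝ => H (z, τ)) := fun z =>
    hHd.comp (contDiff_const.prodMk contDiff_id)
  have hslicec : ∀ z : V × ℝ, HasCompactSupport (fun τ : ℝ => H (z, τ)) := by
    intro z
    refine HasCompactSupport.intro (hKc.image continuous_snd) fun τ hτ => ?_
    apply hH0
    intro h
    exact hτ ⟨_, h, rfl⟩
  have hder : ∀ z τ, (z, τ) ∈ S → deriv (fun τ : ℝ => H (z, τ)) τ = fderiv ℝ η (Θ (z, τ)) w := by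
    intro z τ hq
    have hmap : ContinuousAt (fun τ : ℝ => (z, τ)) τ := by fun_prop
    have h1 : (fun τ : ℝ => H (z, τ)) =ᶠ[𝓝 τ] fun τ => η (Θ (z, τ)) :=
      hmap.tendsto.eventually (hHev _ hq)
    rw [h1.deriv_eq]
    have h2 : HasDerivAt (fun τ : ℝ => Θ (z, τ)) w τ := by
      have : HasDerivAt (fun τ : ℝ => z.2 • f z.1 + τ • w) ((1 : ℝ) • w) τ :=
        ((hasDerivAt_id τ).smul_const w).const_add _
      rw [one_smul] at this
      exact this
    have h3 : HasFDerivAt η (fderiv ℝ η (Θ (z, τ))) (Θ (z, τ)) :=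
      ((hη.differentiable (by norm_num)).differentiableAt).hasFDerivAt
    exact (h3.comp_hasDerivAt τ h2).deriv
  have hder0 : ∀ z τ, (z, τ) ∉ K → deriv (fun τ : ℝ => H (z, τ)) τ = 0 := by
    intro z τ hq
    have hmap : ContinuousAt (fun τ : ℝ => (z, τ)) τ := by fun_prop
    have h0 : H =ᶠ[𝓝 (z, τ)] fun _ => 0 := by
      filter_upwards [hKc.isClosed.isOpen_compl.mem_nhds hq] with q' hq' using hH0 q' hq'
    have h1 : (fun τ : ℝ => H (z, τ)) =ᶠ[𝓝 τ] fun _ => 0 := hmap.tendsto.eventually h0
    rw [h1.deriv_eq]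
    simp
  set D : (V × ℝ) × ℝ → ℝ := fun q => deriv (fun τ : ℝ => H (q.1, τ)) q.2 with hD
  have hDc : Continuous D := by
    have h1 : D = fun q => fderiv ℝ H q ((0 : V × ℝ), (1 : ℝ)) := by
      funext q
      have h2 : HasDerivAt (fun τ : ℝ => (q.1, τ)) ((0 : V × ℝ), (1 : ℝ)) q.2 :=
        (hasDerivAt_const q.2 q.1).prodMk (hasDerivAt_id q.2)
      have h3 : HasFDerivAt H (fderiv ℝ H q) (q.1, q.2) :=
        ((hHd.differentiable (by norm_num)).differentiableAt).hasFDerivAt
      exact (h3.comp_hasDerivAt q.2 h2).deriv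
    rw [h1]
    exact (hHd.continuous_fderiv one_ne_zero).clm_apply continuous_const
  -- the density
  set G : V × ℝ → ℝ := fun z => z.2 ^ finrank ℝ V * Real.sqrt (metricMat (rep F x₀) z.1).det
    * |⟪N ((chartAt V x₀).symm z.1), w⟫| with hG
  have hGc : ContinuousOn G B := by
    have h1 : ContinuousOn (fun z : V × ℝ => Real.sqrt (metricMat (rep F x₀) z.1).det) B :=
      (measurable_rep_det hF x₀).comp continuousOn_fst fun z hz => hC.tgt z hz
    have h2 : ContinuousOn (fun z : V × ℝ => N ((chartAt V x₀).symm z.1)) B := by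
      refine hc.smooth.continuous.comp_continuousOn ?_
      exact (chartAt V x₀).continuousOn_symm.comp continuousOn_fst fun z hz => hC.tgt z hz
    exact ((continuousOn_snd.pow _).mul h1).mul (h2.inner continuousOn_const).abs
  have hinjS : InjOn (fun q : (V × ℝ) × ℝ => q.1.2 • rep F x₀ q.1.1 + q.2 • w) (B ×ˢ J) := by
    have := e.injOn
    rw [hsrc, heΘ] at this
    exact this
  have himg : (fun q : (V × ℝ) × ℝ => q.1.2 • rep F x₀ q.1.1 + q.2 • w) '' (B ×ˢ J)
      = e.target := by
    have := e.image_source_eq_target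
    rw [hsrc, heΘ] at this
    exact this
  have hL1 : ∫ y, c y * fderiv ℝ η y w
      = ∫ q in S, Real.sign q.2 * D q * G q.1 := by
    have h1 : ∫ y, c y * fderiv ℝ η y w = ∫ y in e.target, c y * fderiv ℝ η y w := by
      refine (setIntegral_eq_integral_of_forall_compl_eq_zero fun y hy => ?_).symm
      have hy' : y ∉ tsupport η := fun h => hy (hsub h)
      have : fderiv ℝ η y = 0 := by
        have h2 : η =ᶠ[𝓝 y] fun _ => 0 := by
          filter_upwards [(isClosed_tsupport η).isOpen_compl.mem_nhds hy'] with z hz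
          exact image_eq_zero_of_notMem_tsupport hz
        rw [h2.fderiv_eq]
        simp
      rw [this]
      simp
    rw [h1, ← himg, chart_image hW hF hc.normal x₀ w hC.isOpen isOpen_Ioo
      (fun q hq => ⟨hC.tgt q hq, hC.rpos q hq⟩) hinjS]
    refine setIntegral_congr_fun hSo.measurableSet fun q hq => ?_
    have h3 : c (Θ q) = Real.sign q.2 := by
      rw [← heΘ]
      exact hC.col q (by rw [hsrc]; exact hq)
    have h4 : D q = fderiv ℝ η (Θ q) w := hder q.1 q.2 hq
    change c (Θ q) * fderiv ℝ η (Θ q) w * G q.1 = _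
    rw [h3, h4]
  -- integrability
  have hint : IntegrableOn (fun q : (V × ℝ) × ℝ => Real.sign q.2 * D q * G q.1) S := by
    have h1 : ContinuousOn (fun q : (V × ℝ) × ℝ => D q * G q.1) K :=
      hDc.continuousOn.mul (hGc.comp continuousOn_fst fun q hq => (hKS hq).1)
    have h2 : IntegrableOn (fun q : (V × ℝ) × ℝ => D q * G q.1) K := h1.integrableOn_compact hKc
    have h3 : IntegrableOn (fun q : (V × ℝ) × ℝ => Real.sign q.2 * D q * G q.1) K := by
      have h4 : AEStronglyMeasurable (fun q : (V × ℝ) × ℝ => Real.sign q.2) (volume.restrict K) :=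
        (measurable_rsign.comp measurable_snd).aestronglyMeasurable
      have h5 := h2.bdd_mul (c := 1) h4 (Eventually.of_forall fun q => by
        rcases Real.sign_apply_eq q.2 with h | h | h <;> rw [h] <;> norm_num)
      refine h5.congr (Eventually.of_forall fun q => ?_)
      ring
    refine h3.of_forall_sdiff_eq_zero hSo.measurableSet fun q hq => ?_
    have : D q = 0 := hder0 q.1 q.2 hq.2
    rw [this, mul_zero, zero_mul]
  have hL2 : ∫ q in S, Real.sign q.2 * D q * G q.1 = ∫ z in B, -2 * H (z, 0) * G z := by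
    rw [hS, Measure.volume_eq_prod, setIntegral_prod _ (by rw [← Measure.volume_eq_prod]; exact hint)]
    refine setIntegral_congr_fun hC.isOpen.measurableSet fun z hz => ?_
    change ∫ τ in J, Real.sign τ * deriv (fun τ : ℝ => H (z, τ)) τ * G z = _
    rw [integral_mul_const, ← line_int (hslice z) (hslicec z)]
    congr 1
    refine setIntegral_eq_integral_of_forall_compl_eq_zero fun τ hτ => ?_
    rw [hder0 z τ fun h => hτ (hKS h).2, mul_zero]
  -- the right side
  have hR : ∫ x, ⟪N x, w⟫ * (∫ r in Ioi (0 : ℝ), η (r • F x) * r ^ finrank ℝ V) ∂(volM V F)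
      = ∫ z in B, H (z, 0) * G z := by
    have hgm : StronglyMeasurable (fun x => ⟪N x, w⟫ * ray F (finrank ℝ V) η x) := by
      have h1 : Measurable (fun x => ⟪N x, w⟫) :=
        (hc.smooth.continuous.inner continuous_const).measurable
      exact h1.stronglyMeasurable.mul (ray_meas hF.smooth.continuous hη.continuous _)
    have hg0 : ∀ p, p ∉ (chartAt V x₀).source → ⟪N p, w⟫ * ray F (finrank ℝ V) η p = 0 := by
      intro p hp
      have : ray F (finrank ℝ V) η p = 0 := by
        unfold ray
        refine (setIntegral_congr_fun measurableSet_Ioi fun r hr => ?_).trans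
          (integral_zero _ _)
        have h1 : η (r • F p) = 0 := by
          apply image_eq_zero_of_notMem_tsupport
          intro hmem
          exact hp (hC.back p r hr (hsub hmem)).1
        simp only [h1, zero_mul]
      rw [this, mul_zero]
    have h1 := integral_chart' hF x₀ hgm hg0
    change ∫ x, ⟪N x, w⟫ * ray F (finrank ℝ V) η x ∂(volM V F) = _
    rw [h1]
    set P : V × ℝ → ℝ := fun z => Real.sqrt (metricMat (rep F x₀) z.1).det
      * (⟪N ((chartAt V x₀).symm z.1), w⟫ * (H (z, 0) * z.2 ^ finrank ℝ V)) with hP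
    have hT := (chartAt V x₀).open_target.measurableSet
    set K0 : Set (V × ℝ) := (fun z : V × ℝ => (z, (0 : ℝ))) ⁻¹' K with hK0
    have hK0c : IsCompact K0 := by
      have h1 : K0 = Prod.fst '' (K ∩ {q : (V × ℝ) × ℝ | q.2 = 0}) := by
        ext z
        constructor
        · intro hz
          exact ⟨(z, 0), ⟨hz, rfl⟩, rfl⟩
        · rintro ⟨⟨z', τ⟩, ⟨h1, h2⟩, rfl⟩
          have h3 : τ = 0 := h2
          rw [h3] at h1
          exact h1
      rw [h1]
      exact (hKc.inter_right (isClosed_eq continuous_snd continuous_const)).image continuous_fst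
    have hK0B : K0 ⊆ B := fun z hz => (hKS hz).1
    have hBT : B ⊆ (chartAt V x₀).target ×ˢ Ioi (0 : ℝ) := fun z hz =>
      ⟨hC.tgt z hz, hC.rpos z hz⟩
    have hPc : ContinuousOn P B := by
      have h1 : ContinuousOn (fun z : V × ℝ => Real.sqrt (metricMat (rep F x₀) z.1).det) B :=
        (measurable_rep_det hF x₀).comp continuousOn_fst fun z hz => hC.tgt z hz
      have h2 : ContinuousOn (fun z : V × ℝ => N ((chartAt V x₀).symm z.1)) B := by
        refine hc.smooth.continuous.comp_continuousOn ?_
        exact (chartAt V x₀).continuousOn_symm.comp continuousOn_fst fun z hz => hC.tgt z hz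
      have h3 : Continuous (fun z : V × ℝ => H (z, 0)) :=
        hHd.continuous.comp (by fun_prop)
      exact h1.mul ((h2.inner continuousOn_const).mul
        (h3.continuousOn.mul (continuousOn_snd.pow _)))
    have hP0 : ∀ z, z ∉ K0 → P z = 0 := by
      intro z hz
      have : H (z, 0) = 0 := hH0 _ hz
      simp only [hP, this, zero_mul, mul_zero]
    have hPi : IntegrableOn P ((chartAt V x₀).target ×ˢ Ioi (0 : ℝ)) :=
      ((hPc.mono hK0B).integrableOn_compact hK0c).of_forall_sdiff_eq_zero
        (hT.prod measurableSet_Ioi) fun z hz => hP0 z hz.2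
    have h2 : ∫ u in (chartAt V x₀).target, Real.sqrt (metricMat (rep F x₀) u).det
        * (⟪N ((chartAt V x₀).symm u), w⟫ * ray F (finrank ℝ V) η ((chartAt V x₀).symm u))
        = ∫ z in (chartAt V x₀).target ×ˢ Ioi (0 : ℝ), P z := by
      rw [Measure.volume_eq_prod, setIntegral_prod _ (by rw [← Measure.volume_eq_prod]; exact hPi)]
      refine setIntegral_congr_fun hT fun u hu => ?_
      change _ = ∫ r in Ioi (0 : ℝ), Real.sqrt (metricMat (rep F x₀) u).det
        * (⟪N ((chartAt V x₀).symm u), w⟫ * (H ((u, r), 0) * r ^ finrank ℝ V))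
      rw [integral_const_mul, integral_const_mul]
      congr 2
      unfold ray
      refine setIntegral_congr_fun measurableSet_Ioi fun r hr => ?_
      have hr0 : (0 : ℝ) < r := hr
      have h3 : η (r • F ((chartAt V x₀).symm u)) = H ((u, r), 0) := by
        by_cases hB : (u, r) ∈ B
        · rw [hHS _ ⟨hB, h0J⟩]
          simp only [hΘ, par, zero_smul, add_zero]
          rfl
        · rw [hH0 _ fun h => hB (hKS h).1]
          apply image_eq_zero_of_notMem_tsupport
          intro hmem
          have h4 := (hC.back _ r hr0 (hsub hmem)).2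
          rw [(chartAt V x₀).right_inv hu] at h4
          exact hB h4
      simp only [h3]
    rw [h2, setIntegral_eq_of_subset_of_forall_sdiff_eq_zero (hT.prod measurableSet_Ioi) hBT
      fun z hz => hP0 z fun h => hz.2 (hK0B h)]
    refine setIntegral_congr_fun hC.isOpen.measurableSet fun z hz => ?_
    simp only [hP, hG]
    rw [abs_of_pos (hC.npos z hz)]
    ring
  unfold DivId
  rw [hL1, hL2, hR, ← integral_const_mul]
  refine integral_congr_ae (Eventually.of_forall fun z => ?_)
  ring

/-- T3: the identity near a point of the cone -/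
theorem local_on [IsManifold 𝓘(ℝ, V) ∞ M] [CompactSpace M]
    (hW : finrank ℝ W = finrank ℝ V + 2) {F N : M → W} (hF : SphImm V F)
    (hinj : Function.Injective F) {c : W → ℝ}
    (hc : ColData (V := V) F N c) {y : W} (hyc : y ∈ cone F) (a : W) :
    ∃ O ∈ 𝓝 y, ∀ η : W → ℝ, ContDiff ℝ 1 η → HasCompactSupport η → tsupport η ⊆ O →
      DivId V F N c a η := by
  obtain ⟨r₀, hr₀, x₀, rfl⟩ := hyc
  set lam : ℝ := |⟪N x₀, a⟫| + 1 with hlam
  have hn : ⟪N x₀, N x₀⟫ = 1 := by
    rw [real_inner_self_eq_norm_sq, (hc.normal x₀).1]; norm_num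
  have hl : 0 < lam := by positivity
  obtain ⟨O1, hO1, h1⟩ := local_pos hW hF hinj hc x₀ hr₀ (w := a + lam • N x₀) (by
    rw [inner_add_right, inner_smul_right, hn, mul_one]
    have := neg_abs_le ⟪N x₀, a⟫
    linarith)
  obtain ⟨O2, hO2, h2⟩ := local_pos hW hF hinj hc x₀ hr₀ (w := lam • N x₀) (by
    rw [inner_smul_right, hn, mul_one]
    exact hl)
  refine ⟨O1 ∩ O2, Filter.inter_mem hO1 hO2, ?_⟩
  intro η hη hcη hsub
  have e1 := h1 η hη hcη (hsub.trans inter_subset_left)
  have e2 := h2 η hη hcη (hsub.trans inter_subset_right)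
  unfold DivId at e1 e2 ⊢
  have i1 := integrable_left hc.meas hc.bdd (a + lam • N x₀) hη hcη
  have i2 := integrable_left hc.meas hc.bdd (lam • N x₀) hη hcη
  have j1 := integrable_right hF hc.smooth (fun x => (hc.normal x).1) (a + lam • N x₀)
    hη.continuous hcη (finrank ℝ V)
  have j2 := integrable_right hF hc.smooth (fun x => (hc.normal x).1) (lam • N x₀)
    hη.continuous hcη (finrank ℝ V)
  have k1 : ∫ y, c y * fderiv ℝ η y a = (∫ y, c y * fderiv ℝ η y (a + lam • N x₀))
      - ∫ y, c y * fderiv ℝ η y (lam • N x₀) := by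
    rw [← integral_sub i1 i2]
    refine integral_congr_ae (Eventually.of_forall fun y => ?_)
    simp only [map_add]
    ring
  have k2 : ∫ x, ⟪N x, a⟫ * (∫ r in Ioi (0 : ℝ), η (r • F x) * r ^ finrank ℝ V) ∂(volM V F)
      = (∫ x, ⟪N x, a + lam • N x₀⟫ * (∫ r in Ioi (0 : ℝ), η (r • F x) * r ^ finrank ℝ V)
          ∂(volM V F))
      - ∫ x, ⟪N x, lam • N x₀⟫ * (∫ r in Ioi (0 : ℝ), η (r • F x) * r ^ finrank ℝ V)
          ∂(volM V F) := by
    refine Eq.trans ?_ (integral_sub j1 j2)
    refine integral_congr_ae (Eventually.of_forall fun x => ?_)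
    simp only [inner_add_right]
    ring
  rw [k1, k2, e1, e2]
  ring

end Vale.Agent.P224.TP
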